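import Mathlib

namespace Vale.Agent.P113.L2

abbrev QC := ℕ × ℕ × ℕ

noncomputable def qv (t : QC) : ℝ := ((t.1 : ℝ) - t.2.1) / (t.2.2 + 1)

def qadd (s t : QC) : QC :=
  (s.1 * (t.2.2 + 1) + t.1 * (s.2.2 + 1), s.2.1 * (t.2.2 + 1) + t.2.1 * (s.2.2 + 1),
    (s.2.2 + 1) * (t.2.2 + 1) - 1)

def qneg (s : QC) : QC := (s.2.1, s.1, s.2.2)

def qmul (s t : QC) : QC :=
  (s.1 * t.1 + s.2.1 * t.2.1, s.1 * t.2.1 + s.2.1 * t.1, (s.2.2 + 1) * (t.2.2 + 1) - 1)

def qnat (n : ℕ) : QC := (n, 0, 0)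

def qabsBound (s : QC) : ℕ := s.1 + s.2.1

def qinv (s : QC) : QC :=
  if s.2.1 < s.1 then (s.2.2 + 1, 0, s.1 - s.2.1 - 1)
  else if s.1 < s.2.1 then (0, s.2.2 + 1, s.2.1 - s.1 - 1) else (0, 0, 0)

def qinvSucc (n : ℕ) : QC := (1, 0, n)

def qle (s t : QC) : Prop :=
  s.1 * (t.2.2 + 1) + t.2.1 * (s.2.2 + 1) ≤ t.1 * (s.2.2 + 1) + s.2.1 * (t.2.2 + 1)

instance (s t : QC) : Decidable (qle s t) := inferInstanceAs (Decidable (_ ≤ _))

theorem cast_den (a b : ℕ) : (((a + 1) * (b + 1) - 1 : ℕ) : ℝ) = ((a : ℝ) + 1) * (b + 1) - 1 := by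
  have h : 1 ≤ (a + 1) * (b + 1) := Nat.one_le_iff_ne_zero.mpr (by positivity)
  rw [Nat.cast_sub h]
  push_cast
  ring

theorem qv_qadd (s t : QC) : qv (qadd s t) = qv s + qv t := by
  unfold qv qadd
  simp only [cast_den]
  push_cast
  field_simp
  ring

theorem qv_qneg (s : QC) : qv (qneg s) = - qv s := by
  unfold qv qneg
  simp only
  ring

theorem qv_qmul (s t : QC) : qv (qmul s t) = qv s * qv t := by
  unfold qv qmul
  simp only [cast_den]
  push_cast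
  field_simp
  ring

@[simp] theorem qv_qnat (n : ℕ) : qv (qnat n) = n := by
  simp [qv, qnat]

@[simp] theorem qv_qinvSucc (n : ℕ) : qv (qinvSucc n) = 1 / ((n : ℝ) + 1) := by
  simp [qv, qinvSucc]

theorem abs_qv_le (s : QC) : |qv s| ≤ qabsBound s := by
  unfold qv qabsBound
  have h1 : (0 : ℝ) < (s.2.2 : ℝ) + 1 := by positivity
  rw [abs_div, abs_of_pos h1]
  have h2 : |(s.1 : ℝ) - s.2.1| ≤ (s.1 : ℝ) + s.2.1 := by
    rw [abs_le]
    constructor
    · have : (0 : ℝ) ≤ s.1 := by positivity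
      linarith
    · have : (0 : ℝ) ≤ s.2.1 := by positivity
      linarith
  push_cast
  calc |(s.1 : ℝ) - s.2.1| / ((s.2.2 : ℝ) + 1) ≤ |(s.1 : ℝ) - s.2.1| / 1 := by
        apply div_le_div_of_nonneg_left (abs_nonneg _) one_pos
        have : (0 : ℝ) ≤ s.2.2 := by positivity
        linarith
    _ ≤ _ := by simpa using h2

theorem qle_iff (s t : QC) : qle s t ↔ qv s ≤ qv t := by
  unfold qle qv
  have h1 : (0 : ℝ) < (s.2.2 : ℝ) + 1 := by positivity
  have h2 : (0 : ℝ) < (t.2.2 : ℝ) + 1 := by positivity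
  rw [div_le_div_iff₀ h1 h2, ← Nat.cast_le (α := ℝ)]
  push_cast
  constructor <;> intro h <;> nlinarith

theorem qv_qinv (s : QC) : qv (qinv s) = (qv s)⁻¹ := by
  unfold qinv
  split_ifs with h1 h2
  · unfold qv
    simp only
    have : ((s.1 - s.2.1 - 1 : ℕ) : ℝ) = (s.1 : ℝ) - s.2.1 - 1 := by
      rw [Nat.cast_sub (by omega), Nat.cast_sub (by omega)]
      simp
    rw [this]
    push_cast
    have h3 : (0 : ℝ) < (s.1 : ℝ) - s.2.1 := by
      have : (s.2.1 : ℝ) < s.1 := by exact_mod_cast h1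
      linarith
    have h4 : (0 : ℝ) < (s.2.2 : ℝ) + 1 := by positivity
    rw [inv_div, sub_add_cancel, sub_zero]
  · unfold qv
    simp only
    have : ((s.2.1 - s.1 - 1 : ℕ) : ℝ) = (s.2.1 : ℝ) - s.1 - 1 := by
      rw [Nat.cast_sub (by omega), Nat.cast_sub (by omega)]
      simp
    rw [this]
    push_cast
    have h3 : (0 : ℝ) < (s.2.1 : ℝ) - s.1 := by
      have : (s.1 : ℝ) < s.2.1 := by exact_mod_cast h2
      linarith
    have h4 : (0 : ℝ) < (s.2.2 : ℝ) + 1 := by positivity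
    have h5 : (s.1 : ℝ) - s.2.1 ≠ 0 := by linarith
    have h6 : (s.2.1 : ℝ) - s.1 ≠ 0 := by linarith
    rw [inv_div, sub_add_cancel, div_eq_div_iff h6 h5]
    ring
  · have : s.1 = s.2.1 := by omega
    unfold qv
    simp [this]

end Vale.Agent.P113.L2
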