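import Mathlib
import Vale.Agent.P113.L2.CompQ

namespace Vale.Agent.P113.L2

section PrimrecArith

variable {α : Type*} [Primcodable α]

theorem cAdd {f g : α → ℕ} (hf : Computable f) (hg : Computable g) :
    Computable fun a => f a + g a :=
  (Primrec.nat_add.to_comp).comp hf hg

theorem cSub {f g : α → ℕ} (hf : Computable f) (hg : Computable g) :
    Computable fun a => f a - g a :=
  (Primrec.nat_sub.to_comp).comp hf hg

theorem cMul {f g : α → ℕ} (hf : Computable f) (hg : Computable g) :
    Computable fun a => f a * g a :=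
  (Primrec.nat_mul.to_comp).comp hf hg

theorem cDiv {f g : α → ℕ} (hf : Computable f) (hg : Computable g) :
    Computable fun a => f a / g a :=
  (Primrec.nat_div.to_comp).comp hf hg

theorem cMod {f g : α → ℕ} (hf : Computable f) (hg : Computable g) :
    Computable fun a => f a % g a :=
  (Primrec.nat_mod.to_comp).comp hf hg

theorem pPow : Primrec₂ ((· ^ ·) : ℕ → ℕ → ℕ) :=
  Primrec₂.unpaired'.1 Nat.Primrec.pow

theorem cPow {f g : α → ℕ} (hf : Computable f) (hg : Computable g) :
    Computable fun a => f a ^ g a :=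
  (pPow.to_comp).comp hf hg

theorem cConst (n : ℕ) : Computable fun _ : α => n := Computable.const n

theorem cLe {f g : α → ℕ} (hf : Computable f) (hg : Computable g) :
    Computable fun a => decide (f a ≤ g a) := by
  have h : Primrec₂ fun a b : ℕ => decide (a ≤ b) := by
    have := Primrec.nat_le
    rw [primrecRel_iff_primrec_decide] at this
    exact this
  exact (h.to_comp).comp hf hg

theorem cLt {f g : α → ℕ} (hf : Computable f) (hg : Computable g) :
    Computable fun a => decide (f a < g a) := by
  have h : Primrec₂ fun a b : ℕ => decide (a < b) := by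
    have := Primrec.nat_lt
    rw [primrecRel_iff_primrec_decide] at this
    exact this
  exact (h.to_comp).comp hf hg

theorem cEq {β : Type*} [Primcodable β] [DecidableEq β] {f g : α → β}
    (hf : Computable f) (hg : Computable g) :
    Computable fun a => decide (f a = g a) := by
  have h : Primrec₂ fun a b : β => decide (a = b) := by
    have := Primrec.eq (α := β)
    rw [primrecRel_iff_primrec_decide] at this
    exact this
  exact (h.to_comp).comp hf hg

theorem cIte {β : Type*} [Primcodable β] {c : α → Prop} [DecidablePred c] {f g : α → β}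
    (hc : Computable fun a => decide (c a)) (hf : Computable f) (hg : Computable g) :
    Computable fun a => if c a then f a else g a := by
  refine (Computable.cond hc hf hg).of_eq fun a => ?_
  by_cases h : c a <;> simp [h]

theorem cAnd {c d : α → Prop} [DecidablePred c] [DecidablePred d]
    (hc : Computable fun a => decide (c a)) (hd : Computable fun a => decide (d a)) :
    Computable fun a => decide (c a ∧ d a) := by
  refine (Computable.cond hc hd (Computable.const false)).of_eq fun a => ?_
  by_cases h : c a <;> simp [h]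

end PrimrecArith

section QComp

variable {α : Type*} [Primcodable α]

theorem c1 {f : α → QC} (hf : Computable f) : Computable fun a => (f a).1 :=
  Computable.fst.comp hf

theorem c21 {f : α → QC} (hf : Computable f) : Computable fun a => (f a).2.1 :=
  Computable.fst.comp (Computable.snd.comp hf)

theorem c22 {f : α → QC} (hf : Computable f) : Computable fun a => (f a).2.2 :=
  Computable.snd.comp (Computable.snd.comp hf)

theorem cQadd {f g : α → QC} (hf : Computable f) (hg : Computable g) :
    Computable fun a => qadd (f a) (g a) := by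
  unfold qadd
  refine Computable.pair ?_ (Computable.pair ?_ ?_)
  · exact cAdd (cMul (c1 hf) (cAdd (c22 hg) (cConst 1))) (cMul (c1 hg) (cAdd (c22 hf) (cConst 1)))
  · exact cAdd (cMul (c21 hf) (cAdd (c22 hg) (cConst 1))) (cMul (c21 hg) (cAdd (c22 hf) (cConst 1)))
  · exact cSub (cMul (cAdd (c22 hf) (cConst 1)) (cAdd (c22 hg) (cConst 1))) (cConst 1)

theorem cQneg {f : α → QC} (hf : Computable f) : Computable fun a => qneg (f a) := by
  unfold qneg
  exact Computable.pair (c21 hf) (Computable.pair (c1 hf) (c22 hf))

theorem cQmul {f g : α → QC} (hf : Computable f) (hg : Computable g) :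
    Computable fun a => qmul (f a) (g a) := by
  unfold qmul
  refine Computable.pair ?_ (Computable.pair ?_ ?_)
  · exact cAdd (cMul (c1 hf) (c1 hg)) (cMul (c21 hf) (c21 hg))
  · exact cAdd (cMul (c1 hf) (c21 hg)) (cMul (c21 hf) (c1 hg))
  · exact cSub (cMul (cAdd (c22 hf) (cConst 1)) (cAdd (c22 hg) (cConst 1))) (cConst 1)

theorem cQnat {f : α → ℕ} (hf : Computable f) : Computable fun a => qnat (f a) := by
  unfold qnat
  exact Computable.pair hf (Computable.const (0, 0))

theorem cQinvSucc {f : α → ℕ} (hf : Computable f) : Computable fun a => qinvSucc (f a) := by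
  unfold qinvSucc
  exact Computable.pair (cConst 1) (Computable.pair (cConst 0) hf)

theorem cQabsBound {f : α → QC} (hf : Computable f) : Computable fun a => qabsBound (f a) := by
  unfold qabsBound
  exact cAdd (c1 hf) (c21 hf)

theorem cQle {f g : α → QC} (hf : Computable f) (hg : Computable g) :
    Computable fun a => decide (qle (f a) (g a)) := by
  unfold qle
  exact cLe (cAdd (cMul (c1 hf) (cAdd (c22 hg) (cConst 1)))
      (cMul (c21 hg) (cAdd (c22 hf) (cConst 1))))
    (cAdd (cMul (c1 hg) (cAdd (c22 hf) (cConst 1))) (cMul (c21 hf) (cAdd (c22 hg) (cConst 1))))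

theorem cQinv {f : α → QC} (hf : Computable f) : Computable fun a => qinv (f a) := by
  unfold qinv
  refine cIte (cLt (c21 hf) (c1 hf)) ?_ (cIte (cLt (c1 hf) (c21 hf)) ?_ (Computable.const _))
  · exact Computable.pair (cAdd (c22 hf) (cConst 1)) (Computable.pair (cConst 0)
      (cSub (cSub (c1 hf) (c21 hf)) (cConst 1)))
  · exact Computable.pair (cConst 0) (Computable.pair (cAdd (c22 hf) (cConst 1))
      (cSub (cSub (c21 hf) (c1 hf)) (cConst 1)))

end QComp

section RatComp

variable {α β : Type*} [Primcodable α] [Primcodable β]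

def RatComp (f : α → ℝ) : Prop := ∃ F : α → QC, Computable F ∧ ∀ a, f a = qv (F a)

theorem RatComp.of_eq {f g : α → ℝ} (hf : RatComp f) (h : ∀ a, f a = g a) : RatComp g :=
  (funext h : f = g) ▸ hf

theorem RatComp.comp {f : β → ℝ} (hf : RatComp f) {g : α → β} (hg : Computable g) :
    RatComp fun a => f (g a) := by
  obtain ⟨F, hF, h⟩ := hf
  exact ⟨fun a => F (g a), hF.comp hg, fun a => h (g a)⟩

theorem RatComp.qv : RatComp (qv : QC → ℝ) := ⟨id, Computable.id, fun _ => rfl⟩

theorem RatComp.nat {f : α → ℕ} (hf : Computable f) : RatComp fun a => (f a : ℝ) :=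
  ⟨fun a => qnat (f a), cQnat hf, fun a => by simp⟩

theorem RatComp.add {f g : α → ℝ} (hf : RatComp f) (hg : RatComp g) :
    RatComp fun a => f a + g a := by
  obtain ⟨F, hF, h⟩ := hf
  obtain ⟨G, hG, h'⟩ := hg
  exact ⟨fun a => qadd (F a) (G a), cQadd hF hG, fun a => by simp only [qv_qadd, h, h']⟩

theorem RatComp.neg {f : α → ℝ} (hf : RatComp f) : RatComp fun a => - f a := by
  obtain ⟨F, hF, h⟩ := hf
  exact ⟨fun a => qneg (F a), cQneg hF, fun a => by simp only [qv_qneg, h]⟩

theorem RatComp.sub {f g : α → ℝ} (hf : RatComp f) (hg : RatComp g) :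
    RatComp fun a => f a - g a :=
  (hf.add hg.neg).of_eq fun a => by ring

theorem RatComp.mul {f g : α → ℝ} (hf : RatComp f) (hg : RatComp g) :
    RatComp fun a => f a * g a := by
  obtain ⟨F, hF, h⟩ := hf
  obtain ⟨G, hG, h'⟩ := hg
  exact ⟨fun a => qmul (F a) (G a), cQmul hF hG, fun a => by simp only [qv_qmul, h, h']⟩

theorem RatComp.inv {f : α → ℝ} (hf : RatComp f) : RatComp fun a => (f a)⁻¹ := by
  obtain ⟨F, hF, h⟩ := hf
  exact ⟨fun a => qinv (F a), cQinv hF, fun a => by simp only [qv_qinv, h]⟩

theorem RatComp.div {f g : α → ℝ} (hf : RatComp f) (hg : RatComp g) :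
    RatComp fun a => f a / g a :=
  (hf.mul hg.inv).of_eq fun a => by rw [div_eq_mul_inv]

theorem RatComp.natConst (n : ℕ) : RatComp fun _ : α => (n : ℝ) := RatComp.nat (cConst n)

theorem RatComp.ratConst (q : ℚ) : RatComp fun _ : α => (q : ℝ) := by
  have h1 : RatComp fun _ : α => ((q.num.toNat : ℝ) - ((-q.num).toNat : ℝ)) / (q.den : ℝ) :=
    ((RatComp.natConst _).sub (RatComp.natConst _)).div (RatComp.natConst _)
  refine h1.of_eq fun _ => ?_
  have h2 : ((q.num.toNat : ℝ) - ((-q.num).toNat : ℝ)) = (q.num : ℝ) := by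
    have := Int.toNat_sub_toNat_neg q.num
    exact_mod_cast this
  rw [h2]
  exact (Rat.cast_def q).symm

theorem RatComp.one : RatComp fun _ : α => (1 : ℝ) :=
  (RatComp.natConst 1).of_eq fun _ => by simp

theorem RatComp.zero : RatComp fun _ : α => (0 : ℝ) :=
  (RatComp.natConst 0).of_eq fun _ => by simp

theorem RatComp.ite {c : α → Prop} [DecidablePred c] {f g : α → ℝ}
    (hc : Computable fun a => decide (c a)) (hf : RatComp f) (hg : RatComp g) :
    RatComp fun a => if c a then f a else g a := by
  obtain ⟨F, hF, h⟩ := hf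
  obtain ⟨G, hG, h'⟩ := hg
  refine ⟨fun a => if c a then F a else G a, cIte hc hF hG, fun a => ?_⟩
  by_cases hca : c a <;> simp [hca, h, h']

theorem RatComp.le {f g : α → ℝ} (hf : RatComp f) (hg : RatComp g) :
    ∃ c : α → Bool, Computable c ∧ ∀ a, c a = true ↔ f a ≤ g a := by
  obtain ⟨F, hF, h⟩ := hf
  obtain ⟨G, hG, h'⟩ := hg
  refine ⟨fun a => decide (qle (F a) (G a)), cQle hF hG, fun a => ?_⟩
  simp [qle_iff, h, h']

end RatComp

end Vale.Agent.P113.L2
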