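import Mathlib
import Vale.Agent.P113.L2.CompReal

namespace Vale.Agent.P113.L2

variable {α β : Type*} [Primcodable α] [Primcodable β]

def CompReal (f : α → ℝ) : Prop :=
  ∃ F : α × ℕ → QC, Computable F ∧ ∀ a n, |f a - qv (F (a, n))| ≤ 1 / ((n : ℝ) + 1)

theorem CompReal.of_eq {f g : α → ℝ} (hf : CompReal f) (h : ∀ a, f a = g a) : CompReal g :=
  (funext h : f = g) ▸ hf

theorem CompReal.comp {f : β → ℝ} (hf : CompReal f) {g : α → β} (hg : Computable g) :
    CompReal fun a => f (g a) := by
  obtain ⟨F, hF, h⟩ := hf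
  exact ⟨fun p => F (g p.1, p.2), hF.comp ((hg.comp Computable.fst).pair Computable.snd),
    fun a n => h (g a) n⟩

theorem RatComp.compReal {f : α → ℝ} (hf : RatComp f) : CompReal f := by
  obtain ⟨F, hF, h⟩ := hf
  refine ⟨fun p => F p.1, hF.comp Computable.fst, fun a n => ?_⟩
  rw [h a, sub_self, abs_zero]
  positivity

theorem CompReal.approx {f : α → ℝ} {F : α × ℕ → QC}
    (h : ∀ a n, |f a - qv (F (a, n))| ≤ 1 / ((n : ℝ) + 1)) (a : α) {n m : ℕ}
    (k : ℝ) (hk : 0 < k) (hm : k * (n + 1) ≤ (m : ℝ) + 1) :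
    |f a - qv (F (a, m))| ≤ 1 / (k * ((n : ℝ) + 1)) := by
  refine (h a m).trans ?_
  apply one_div_le_one_div_of_le _ hm
  positivity

theorem CompReal.add {f g : α → ℝ} (hf : CompReal f) (hg : CompReal g) :
    CompReal fun a => f a + g a := by
  obtain ⟨F, hF, h⟩ := hf
  obtain ⟨G, hG, h'⟩ := hg
  refine ⟨fun p => qadd (F (p.1, 2 * p.2 + 1)) (G (p.1, 2 * p.2 + 1)), ?_, fun a n => ?_⟩
  · have h0 : Computable fun p : α × ℕ => (p.1, 2 * p.2 + 1) :=
      Computable.fst.pair (cAdd (cMul (cConst 2) Computable.snd) (cConst 1))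
    exact cQadd (hF.comp h0) (hG.comp h0)
  · simp only [qv_qadd]
    have e1 := CompReal.approx h a (n := n) (m := 2 * n + 1) 2 two_pos (by push_cast; linarith)
    have e2 := CompReal.approx h' a (n := n) (m := 2 * n + 1) 2 two_pos (by push_cast; linarith)
    have e3 : (1 : ℝ) / (2 * ((n : ℝ) + 1)) + 1 / (2 * ((n : ℝ) + 1)) = 1 / ((n : ℝ) + 1) := by
      field_simp
      norm_num
    calc |f a + g a - (qv (F (a, 2 * n + 1)) + qv (G (a, 2 * n + 1)))|
        = |(f a - qv (F (a, 2 * n + 1))) + (g a - qv (G (a, 2 * n + 1)))| := by ring_nf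
      _ ≤ |f a - qv (F (a, 2 * n + 1))| + |g a - qv (G (a, 2 * n + 1))| := abs_add_le _ _
      _ ≤ _ := by rw [← e3]; exact add_le_add e1 e2

theorem CompReal.neg {f : α → ℝ} (hf : CompReal f) : CompReal fun a => - f a := by
  obtain ⟨F, hF, h⟩ := hf
  refine ⟨fun p => qneg (F p), cQneg hF, fun a n => ?_⟩
  rw [qv_qneg, ← abs_neg]
  convert h a n using 2
  ring

theorem CompReal.sub {f g : α → ℝ} (hf : CompReal f) (hg : CompReal g) :
    CompReal fun a => f a - g a :=
  (hf.add hg.neg).of_eq fun a => by ring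

theorem CompReal.mul {f g : α → ℝ} (hf : CompReal f) (hg : CompReal g) :
    CompReal fun a => f a * g a := by
  obtain ⟨F, hF, h⟩ := hf
  obtain ⟨G, hG, h'⟩ := hg
  let K : α → ℕ := fun a => qabsBound (F (a, 0)) + qabsBound (G (a, 0)) + 2
  have hK : Computable K := by
    refine cAdd (cAdd (cQabsBound (hF.comp ?_)) (cQabsBound (hG.comp ?_))) (cConst 2)
    · exact Computable.id.pair (cConst 0)
    · exact Computable.id.pair (cConst 0)
  let m : α × ℕ → ℕ := fun p => 2 * K p.1 * (p.2 + 1)
  have hm : Computable m :=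
    cMul (cMul (cConst 2) (hK.comp Computable.fst)) (cAdd Computable.snd (cConst 1))
  refine ⟨fun p => qmul (F (p.1, m p)) (G (p.1, m p)), ?_, fun a n => ?_⟩
  · have h0 : Computable fun p : α × ℕ => (p.1, m p) := Computable.fst.pair hm
    exact cQmul (hF.comp h0) (hG.comp h0)
  · simp only [qv_qmul]
    have hK1 : (2 : ℝ) ≤ K a := by
      simp only [K]; push_cast
      have : (0 : ℝ) ≤ (qabsBound (F (a, 0)) : ℝ) := by positivity
      have : (0 : ℝ) ≤ (qabsBound (G (a, 0)) : ℝ) := by positivity
      linarith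
    have hfK : |f a| ≤ K a := by
      have h1 := h a 0
      have h2 := abs_qv_le (F (a, 0))
      have h3 : |f a| ≤ |f a - qv (F (a, 0))| + |qv (F (a, 0))| := by
        have := abs_add_le (f a - qv (F (a, 0))) (qv (F (a, 0)))
        simpa using this
      simp only [K]; push_cast
      have : (0 : ℝ) ≤ (qabsBound (G (a, 0)) : ℝ) := by positivity
      norm_num at h1
      linarith
    have hgK : |g a| + 1 ≤ K a := by
      have h1 := h' a 0
      have h2 := abs_qv_le (G (a, 0))
      have h3 : |g a| ≤ |g a - qv (G (a, 0))| + |qv (G (a, 0))| := by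
        have := abs_add_le (g a - qv (G (a, 0))) (qv (G (a, 0)))
        simpa using this
      simp only [K]; push_cast
      have : (0 : ℝ) ≤ (qabsBound (F (a, 0)) : ℝ) := by positivity
      norm_num at h1
      linarith
    have hKpos : (0 : ℝ) < 2 * K a := by linarith
    have em : 2 * (K a : ℝ) * ((n : ℝ) + 1) ≤ ((m (a, n) : ℕ) : ℝ) + 1 := by
      simp only [m]; push_cast; linarith
    have e1 := CompReal.approx h a (n := n) (m := m (a, n)) (2 * K a) hKpos em
    have e2 := CompReal.approx h' a (n := n) (m := m (a, n)) (2 * K a) hKpos em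
    set x := qv (F (a, m (a, n))) with hx
    set y := qv (G (a, m (a, n))) with hy
    have hone : 1 / (2 * (K a : ℝ) * ((n : ℝ) + 1)) ≤ 1 := by
      rw [div_le_one (by positivity)]
      have : (0 : ℝ) ≤ n := by positivity
      nlinarith
    have hyK : |y| ≤ K a := by
      have h3 : |y| ≤ |g a| + |g a - y| := by
        have := abs_sub_abs_le_abs_sub y (g a)
        rw [abs_sub_comm y (g a)] at this
        linarith
      linarith
    have key : f a * g a - x * y = f a * (g a - y) + (f a - x) * y := by ring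
    rw [key]
    have hKK : (K a : ℝ) * (1 / (2 * (K a : ℝ) * ((n : ℝ) + 1))) +
        1 / (2 * (K a : ℝ) * ((n : ℝ) + 1)) * K a = 1 / ((n : ℝ) + 1) := by
      have : (K a : ℝ) ≠ 0 := by linarith
      field_simp
      norm_num
    calc |f a * (g a - y) + (f a - x) * y| ≤ |f a * (g a - y)| + |(f a - x) * y| := abs_add_le _ _
      _ = |f a| * |g a - y| + |f a - x| * |y| := by rw [abs_mul, abs_mul]
      _ ≤ (K a : ℝ) * (1 / (2 * (K a : ℝ) * ((n : ℝ) + 1))) +
        1 / (2 * (K a : ℝ) * ((n : ℝ) + 1)) * K a := by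
          gcongr
      _ = _ := hKK

theorem CompReal.ite {c : α → Prop} [DecidablePred c] {f g : α → ℝ}
    (hc : Computable fun a => decide (c a)) (hf : CompReal f) (hg : CompReal g) :
    CompReal fun a => if c a then f a else g a := by
  obtain ⟨F, hF, h⟩ := hf
  obtain ⟨G, hG, h'⟩ := hg
  refine ⟨fun p => if c p.1 then F p else G p, cIte (hc.comp Computable.fst) hF hG, fun a n => ?_⟩
  by_cases hca : c a
  · simp only [hca, if_true]; exact h a n
  · simp only [hca, if_false]; exact h' a n

theorem CompReal.cond {c : α → Bool} {f g : α → ℝ}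
    (hc : Computable c) (hf : CompReal f) (hg : CompReal g) :
    CompReal fun a => if c a = true then f a else g a :=
  CompReal.ite (by simpa using hc) hf hg

theorem CompReal.sum {m : α → ℕ} (hm : Computable m) {f : α × ℕ → ℝ} (hf : CompReal f) :
    CompReal fun a => ∑ i ∈ Finset.range (m a), f (a, i) := by
  obtain ⟨F, hF, h⟩ := hf
  let S : α × ℕ → ℕ → QC := fun p k =>
    Nat.rec (0, 0, 0) (fun i acc => qadd acc (F ((p.1, i), m p.1 * (p.2 + 1)))) k
  refine ⟨fun p => S p (m p.1), ?_, fun a n => ?_⟩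
  · refine (Computable.nat_rec (f := fun p : α × ℕ => m p.1) (g := fun _ => ((0, 0, 0) : QC))
      (h := fun (p : α × ℕ) (q : ℕ × QC) =>
        qadd q.2 (F ((p.1, q.1), m p.1 * (p.2 + 1)))) (hm.comp Computable.fst)
        (Computable.const _) ?_)
    refine cQadd (Computable.snd.comp Computable.snd) (hF.comp ?_)
    refine Computable.pair (Computable.pair ?_ ?_) ?_
    · exact Computable.fst.comp Computable.fst
    · exact Computable.fst.comp Computable.snd
    · exact cMul (hm.comp (Computable.fst.comp Computable.fst))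
        (cAdd (Computable.snd.comp Computable.fst) (cConst 1))
  · have key : ∀ k, |∑ i ∈ Finset.range k, f (a, i) - qv (S (a, n) k)| ≤
        k * (1 / (((m a * (n + 1) : ℕ) : ℝ) + 1)) := by
      intro k
      induction k with
      | zero => simp [S, qv]
      | succ k ih =>
        have e : qv (S (a, n) (k + 1)) = qv (S (a, n) k) + qv (F ((a, k), m a * (n + 1))) := by
          simp only [S, qv_qadd]
        rw [Finset.sum_range_succ, e]
        have h1 := h (a, k) (m a * (n + 1))
        calc |∑ i ∈ Finset.range k, f (a, i) + f (a, k) -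
              (qv (S (a, n) k) + qv (F ((a, k), m a * (n + 1))))|
            = |(∑ i ∈ Finset.range k, f (a, i) - qv (S (a, n) k)) +
              (f (a, k) - qv (F ((a, k), m a * (n + 1))))| := by ring_nf
          _ ≤ _ := abs_add_le _ _
          _ ≤ k * (1 / (((m a * (n + 1) : ℕ) : ℝ) + 1)) +
              1 / (((m a * (n + 1) : ℕ) : ℝ) + 1) := add_le_add ih h1
          _ = _ := by push_cast; ring
    refine (key (m a)).trans ?_
    push_cast
    have h0 : (0 : ℝ) ≤ m a := by positivity
    have h1 : (0 : ℝ) ≤ n := by positivity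
    rw [mul_one_div, div_le_div_iff₀ (by positivity) (by positivity)]
    nlinarith

theorem CompReal.ratConst (q : ℚ) : CompReal fun _ : α => (q : ℝ) := (RatComp.ratConst q).compReal

end Vale.Agent.P113.L2
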