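import Mathlib
import Vale.Agent.P113.L2.CompReal2

namespace Vale.Agent.P113.L2

variable {α β : Type*} [Primcodable α] [Primcodable β]

theorem RatComp.pow {f : α → ℝ} (hf : RatComp f) {k : α → ℕ} (hk : Computable k) :
    RatComp fun a => f a ^ k a := by
  obtain ⟨F, hF, h⟩ := hf
  refine ⟨fun a => Nat.rec (1, 0, 0) (fun _ acc => qmul acc (F a)) (k a), ?_, fun a => ?_⟩
  · refine (Computable.nat_rec (f := k) (g := fun _ => ((1, 0, 0) : QC))
      (h := fun (a : α) (q : ℕ × QC) => qmul q.2 (F a)) hk (Computable.const _) ?_)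
    exact cQmul (Computable.snd.comp Computable.snd) (hF.comp Computable.fst)
  · have : ∀ n : ℕ, f a ^ n = L2.qv (Nat.rec (1, 0, 0) (fun _ acc => qmul acc (F a)) n) := by
      intro n
      induction n with
      | zero => simp [L2.qv]
      | succ n ih =>
        simp only [qv_qmul]
        rw [pow_succ, ih, h a]
    exact this (k a)

theorem exp_neg_approx {q : ℝ} (hq : 0 ≤ q) {N : ℕ} (hN : q ≤ N) (hN0 : 0 < N) :
    |Real.exp (-q) - (1 - q / N) ^ N| ≤ q ^ 2 / N := by
  have hNpos : (0 : ℝ) < N := by exact_mod_cast hN0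
  have h1 : (1 - q / N) ^ N ≤ Real.exp (-q) := Real.one_sub_div_pow_le_exp_neg hN
  have h0 : 0 ≤ 1 - q / N := by
    rw [sub_nonneg, div_le_one hNpos]; exact hN
  have h2 : 1 - q ^ 2 / N ≤ (1 - q / N) ^ N * Real.exp q := by
    have h3 : Real.exp q = Real.exp (q / N) ^ N := by
      rw [← Real.exp_nat_mul]
      congr 1
      field_simp
    have h4 : 1 + q / N ≤ Real.exp (q / N) := by
      have := Real.add_one_le_exp (q / N)
      linarith
    have h5 : (1 - q ^ 2 / (N : ℝ) ^ 2) ^ N ≤ (1 - q / N) ^ N * Real.exp q := by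
      rw [h3, ← mul_pow]
      apply pow_le_pow_left₀
      · rw [sub_nonneg, div_le_one (by positivity)]
        gcongr
      · calc 1 - q ^ 2 / (N : ℝ) ^ 2 = (1 - q / N) * (1 + q / N) := by
              field_simp
              ring
          _ ≤ _ := by gcongr
    refine le_trans ?_ h5
    have h6 : -2 ≤ -(q ^ 2 / (N : ℝ) ^ 2) := by
      have : q ^ 2 / (N : ℝ) ^ 2 ≤ 1 := by
        rw [div_le_one (by positivity)]
        gcongr
      linarith
    have h7 := one_add_mul_le_pow h6 N
    have h8 : 1 + (N : ℝ) * -(q ^ 2 / (N : ℝ) ^ 2) = 1 - q ^ 2 / N := by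
      field_simp
      ring
    rw [h8] at h7
    simpa [sub_eq_add_neg] using h7
  rw [abs_of_nonneg (by linarith)]
  have hexp : 0 < Real.exp (-q) := Real.exp_pos _
  have hexp1 : Real.exp (-q) ≤ 1 := by
    rw [Real.exp_le_one_iff]; linarith
  have h9 : Real.exp (-q) * (1 - q ^ 2 / N) ≤ (1 - q / N) ^ N := by
    calc Real.exp (-q) * (1 - q ^ 2 / N) ≤ Real.exp (-q) * ((1 - q / N) ^ N * Real.exp q) := by
          gcongr
      _ = (1 - q / N) ^ N * (Real.exp (-q) * Real.exp q) := by ring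
      _ = (1 - q / N) ^ N := by rw [← Real.exp_add]; simp
  have h10 : 0 ≤ q ^ 2 / N := by positivity
  nlinarith

theorem RatComp.expNeg {f : α → ℝ} (hf : RatComp f) (hpos : ∀ a, 0 ≤ f a) :
    CompReal fun a => Real.exp (-(f a)) := by
  have hf' := hf
  obtain ⟨F, hF, h⟩ := hf
  let K : α → ℕ := fun a => qabsBound (F a) + 1
  have hK : Computable K := cAdd (cQabsBound hF) (cConst 1)
  let N : α × ℕ → ℕ := fun p => (p.2 + 1) * (K p.1 * K p.1) + K p.1
  have hN : Computable N := cAdd (cMul (cAdd Computable.snd (cConst 1))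
    (cMul (hK.comp Computable.fst) (hK.comp Computable.fst))) (hK.comp Computable.fst)
  have hR : RatComp fun p : α × ℕ => (1 - f p.1 / (N p : ℝ)) ^ N p :=
    (RatComp.one.sub ((hf'.comp Computable.fst).div (RatComp.nat hN))).pow hN
  obtain ⟨G, hG, h'⟩ := hR
  refine ⟨G, hG, fun a n => ?_⟩
  rw [← h' (a, n)]
  have hfK : f a ≤ K a := by
    have h1 := abs_qv_le (F a)
    rw [← h a] at h1
    have h2 := le_abs_self (f a)
    simp only [K]; push_cast
    linarith
  have hK1 : (1 : ℝ) ≤ K a := by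
    simp only [K]; push_cast
    have : (0 : ℝ) ≤ (qabsBound (F a) : ℝ) := by positivity
    linarith
  have hNK : ((N (a, n) : ℕ) : ℝ) = ((n : ℝ) + 1) * ((K a : ℝ) * K a) + K a := by
    simp only [N]; push_cast; ring
  have hn : (0 : ℝ) ≤ n := by positivity
  have hfN : f a ≤ (N (a, n) : ℕ) := by
    rw [hNK]
    have : 0 ≤ ((n : ℝ) + 1) * ((K a : ℝ) * K a) := by positivity
    linarith
  have hN0 : 0 < N (a, n) := by
    simp only [N, K]; positivity
  refine (exp_neg_approx (hpos a) hfN hN0).trans ?_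
  have hNpos : (0 : ℝ) < (N (a, n) : ℕ) := by exact_mod_cast hN0
  rw [div_le_div_iff₀ hNpos (by positivity), hNK]
  have h1 : f a ^ 2 ≤ (K a : ℝ) * K a := by
    have := hpos a
    nlinarith
  nlinarith

end Vale.Agent.P113.L2
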