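import Mathlib
import Vale.Agent.P113.L2.CompExp

open scoped ContDiff

namespace Vale.Agent.P113.L2

variable {α β : Type*} [Primcodable α] [Primcodable β]

theorem pFactorial : Primrec Nat.factorial := by
  have h : Primrec (fun n : ℕ => (Nat.rec 1 (fun k acc => (k + 1) * acc) n : ℕ)) := by
    refine Primrec.nat_rec₁ 1 (f := fun k acc => (k + 1) * acc) ?_
    exact (Primrec.nat_mul.comp (Primrec.succ.comp Primrec.fst) Primrec.snd).to₂
  refine h.of_eq fun n => ?_
  induction n with
  | zero => rfl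
  | succ n ih => rw [Nat.factorial_succ, ← ih]

theorem cChoose {f g : α → ℕ} (hf : Computable f) (hg : Computable g) :
    Computable fun a => Nat.choose (f a) (g a) := by
  have h : Computable fun a => if g a ≤ f a then
      Nat.factorial (f a) / (Nat.factorial (g a) * Nat.factorial (f a - g a)) else 0 := by
    refine cIte (cLe hg hf) ?_ (Computable.const 0)
    exact cDiv (pFactorial.to_comp.comp hf)
      (cMul (pFactorial.to_comp.comp hg) (pFactorial.to_comp.comp (cSub hf hg)))
  refine h.of_eq fun a => ?_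
  split_ifs with hle
  · exact (Nat.choose_eq_factorial_div_factorial hle).symm
  · exact (Nat.choose_eq_zero_of_lt (by omega)).symm

def EffSmooth (F : α → ℝ → ℝ) : Prop :=
  (∀ a, ContDiff ℝ ∞ (F a)) ∧
    CompReal fun p : α × ℕ × QC => iteratedDeriv p.2.1 (F p.1) (qv p.2.2)

theorem EffSmooth.of_eq {F G : α → ℝ → ℝ} (hF : EffSmooth F) (h : ∀ a x, F a x = G a x) :
    EffSmooth G := by
  have : F = G := by ext a x; exact h a x
  exact this ▸ hF

theorem EffSmooth.comp {F : β → ℝ → ℝ} (hF : EffSmooth F) {g : α → β} (hg : Computable g) :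
    EffSmooth fun a => F (g a) :=
  ⟨fun a => hF.1 (g a), hF.2.comp (g := fun p : α × ℕ × QC => (g p.1, p.2))
    ((hg.comp Computable.fst).pair Computable.snd)⟩

theorem contDiff_nat {f : ℝ → ℝ} (hf : ContDiff ℝ ∞ f) (n : ℕ) : ContDiff ℝ n f :=
  hf.of_le (by exact_mod_cast le_top)

theorem EffSmooth.deriv {F : α → ℝ → ℝ} (hF : EffSmooth F) (k : ℕ) :
    EffSmooth fun a => iteratedDeriv k (F a) := by
  refine ⟨fun a => ?_, ?_⟩
  · have := hF.1 a
    show ContDiff ℝ ∞ (iteratedDeriv k (F a))
    rw [iteratedDeriv_eq_iterate]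
    exact this.iterate_deriv k
  · have h := hF.2.comp (g := fun p : α × ℕ × QC => (p.1, (p.2.1 + k, p.2.2))) (by
      refine Computable.fst.pair (Computable.pair ?_ ?_)
      · exact cAdd (Computable.fst.comp Computable.snd) (cConst k)
      · exact Computable.snd.comp Computable.snd)
    refine h.of_eq fun p => ?_
    simp only [iteratedDeriv_eq_iterate, Function.iterate_add_apply]

theorem EffSmooth.add {F G : α → ℝ → ℝ} (hF : EffSmooth F) (hG : EffSmooth G) :
    EffSmooth fun a x => F a x + G a x := by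
  refine ⟨fun a => (hF.1 a).add (hG.1 a), ?_⟩
  refine (hF.2.add hG.2).of_eq fun p => ?_
  exact (iteratedDeriv_fun_add (contDiff_nat (hF.1 p.1) _).contDiffAt
    (contDiff_nat (hG.1 p.1) _).contDiffAt).symm

theorem EffSmooth.constMul {F : α → ℝ → ℝ} (hF : EffSmooth F) {c : α → ℝ} (hc : CompReal c) :
    EffSmooth fun a x => c a * F a x := by
  refine ⟨fun a => contDiff_const.mul (hF.1 a), ?_⟩
  refine ((hc.comp Computable.fst).mul hF.2).of_eq fun p => ?_
  simp

theorem EffSmooth.mul {F G : α → ℝ → ℝ} (hF : EffSmooth F) (hG : EffSmooth G) :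
    EffSmooth fun a x => F a x * G a x := by
  refine ⟨fun a => (hF.1 a).mul (hG.1 a), ?_⟩
  have h := CompReal.sum (m := fun p : α × ℕ × QC => p.2.1 + 1)
    (cAdd (Computable.fst.comp Computable.snd) (cConst 1))
    (f := fun q : (α × ℕ × QC) × ℕ => (q.1.2.1.choose q.2 : ℝ) *
      iteratedDeriv q.2 (F q.1.1) (qv q.1.2.2) *
      iteratedDeriv (q.1.2.1 - q.2) (G q.1.1) (qv q.1.2.2)) ?_
  · refine h.of_eq fun p => ?_
    exact (iteratedDeriv_fun_mul (n := p.2.1) (x := qv p.2.2)
      (contDiff_nat (hF.1 p.1) _).contDiffAt (contDiff_nat (hG.1 p.1) _).contDiffAt).symm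
  · have ca : Computable fun q : (α × ℕ × QC) × ℕ => q.1.1 := Computable.fst.comp Computable.fst
    have cn : Computable fun q : (α × ℕ × QC) × ℕ => q.1.2.1 :=
      Computable.fst.comp (Computable.snd.comp Computable.fst)
    have cx : Computable fun q : (α × ℕ × QC) × ℕ => q.1.2.2 :=
      Computable.snd.comp (Computable.snd.comp Computable.fst)
    have ci : Computable fun q : (α × ℕ × QC) × ℕ => q.2 := Computable.snd
    refine CompReal.mul (CompReal.mul ?_ ?_) ?_
    · exact (RatComp.nat (cChoose cn ci)).compReal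
    · exact hF.2.comp (g := fun q : (α × ℕ × QC) × ℕ => (q.1.1, (q.2, q.1.2.2)))
        (ca.pair (ci.pair cx))
    · exact hG.2.comp (g := fun q : (α × ℕ × QC) × ℕ => (q.1.1, (q.1.2.1 - q.2, q.1.2.2)))
        (ca.pair ((cSub cn ci).pair cx))

theorem EffSmooth.affine {F : α → ℝ → ℝ} (hF : EffSmooth F) {c d : α → ℝ}
    (hc : RatComp c) (hd : RatComp d) : EffSmooth fun a x => F a (c a * x + d a) := by
  refine ⟨fun a => (hF.1 a).comp ((contDiff_const.mul contDiff_id).add contDiff_const), ?_⟩
  have hx : RatComp fun p : α × ℕ × QC => c p.1 * qv p.2.2 + d p.1 :=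
    ((hc.comp Computable.fst).mul (RatComp.qv.comp (Computable.snd.comp Computable.snd))).add
      (hd.comp Computable.fst)
  have hc' : RatComp fun p : α × ℕ × QC => c p.1 ^ p.2.1 :=
    (hc.comp Computable.fst).pow (Computable.fst.comp Computable.snd)
  obtain ⟨X, hX, hX'⟩ := hx
  have h2 := hF.2.comp (g := fun p : α × ℕ × QC => (p.1, (p.2.1, X p)))
    (Computable.fst.pair ((Computable.fst.comp Computable.snd).pair hX))
  refine (hc'.compReal.mul h2).of_eq fun p => ?_
  have e1 : iteratedDeriv p.2.1 (fun x => F p.1 (c p.1 * x + d p.1)) =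
      fun x => c p.1 ^ p.2.1 * iteratedDeriv p.2.1 (fun y => F p.1 (y + d p.1)) (c p.1 * x) :=
    iteratedDeriv_comp_const_mul (f := fun y => F p.1 (y + d p.1))
      ((contDiff_nat (hF.1 p.1) _).comp (contDiff_id.add contDiff_const)) (c p.1)
  rw [e1, iteratedDeriv_comp_add_const]
  simp only
  rw [← hX' p]

end Vale.Agent.P113.L2
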