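import Mathlib
import Vale.Agent.P113.L2.CompSmooth

open scoped ContDiff

namespace Vale.Agent.P113.L2

variable {α β : Type*} [Primcodable α] [Primcodable β]

theorem contDiff_phi : ContDiff ℝ ∞ expNegInvGlue := expNegInvGlue.contDiff (n := ⊤)

theorem hasDerivAt_iteratedDeriv {f : ℝ → ℝ} (hf : ContDiff ℝ ∞ f) (k : ℕ) (s : ℝ) :
    HasDerivAt (iteratedDeriv k f) (iteratedDeriv (k + 1) f s) s := by
  rw [iteratedDeriv_succ]
  have h1 : ContDiff ℝ ∞ (iteratedDeriv k f) := by
    rw [iteratedDeriv_eq_iterate]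
    exact hf.iterate_deriv k
  exact (h1.differentiable (by simp)).differentiableAt.hasDerivAt

theorem phi_ode (s : ℝ) : s ^ 2 * deriv expNegInvGlue s = expNegInvGlue s := by
  have h := expNegInvGlue.hasDerivAt_polynomial_eval_inv_mul 1 s
  simp only [Polynomial.eval_one, one_mul, Polynomial.derivative_one, sub_zero, mul_one,
    Polynomial.eval_pow, Polynomial.eval_X] at h
  rw [h.deriv]
  by_cases hs : s = 0
  · simp [hs]
  · field_simp

theorem phi_rec (n : ℕ) : ∀ s : ℝ, s ^ 2 * iteratedDeriv (n + 1) expNegInvGlue s +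
    2 * n * s * iteratedDeriv n expNegInvGlue s +
    n * ((n : ℝ) - 1) * iteratedDeriv (n - 1) expNegInvGlue s =
    iteratedDeriv n expNegInvGlue s := by
  induction n with
  | zero =>
    intro s
    simp [iteratedDeriv_one, phi_ode]
  | succ n ih =>
    intro s
    have hD := hasDerivAt_iteratedDeriv contDiff_phi
    have hL : HasDerivAt (fun s => s ^ 2 * iteratedDeriv (n + 1) expNegInvGlue s +
        2 * n * s * iteratedDeriv n expNegInvGlue s +
        n * ((n : ℝ) - 1) * iteratedDeriv (n - 1) expNegInvGlue s)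
        ((2 * s * iteratedDeriv (n + 1) expNegInvGlue s +
          s ^ 2 * iteratedDeriv (n + 1 + 1) expNegInvGlue s) +
        (2 * n * iteratedDeriv n expNegInvGlue s +
          2 * n * s * iteratedDeriv (n + 1) expNegInvGlue s) +
        n * ((n : ℝ) - 1) * iteratedDeriv (n - 1 + 1) expNegInvGlue s) s := by
      have h1 : HasDerivAt (fun s : ℝ => s ^ 2) (2 * s) s := by
        simpa using hasDerivAt_pow 2 s
      have h2 : HasDerivAt (fun s : ℝ => 2 * (n : ℝ) * s) (2 * n) s := by
        simpa using (hasDerivAt_id s).const_mul (2 * (n : ℝ))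
      exact ((h1.mul (hD (n + 1) s)).add (h2.mul (hD n s))).add
        ((hD (n - 1) s).const_mul (n * ((n : ℝ) - 1)))
    have hR := hD n s
    have heq : (fun s => s ^ 2 * iteratedDeriv (n + 1) expNegInvGlue s +
        2 * n * s * iteratedDeriv n expNegInvGlue s +
        n * ((n : ℝ) - 1) * iteratedDeriv (n - 1) expNegInvGlue s) =
        iteratedDeriv n expNegInvGlue := by
      funext s; exact ih s
    rw [heq] at hL
    have := hL.unique hR
    have hn : (n : ℝ) * ((n : ℝ) - 1) * iteratedDeriv (n - 1 + 1) expNegInvGlue s =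
        (n : ℝ) * ((n : ℝ) - 1) * iteratedDeriv n expNegInvGlue s := by
      rcases n with _ | n
      · simp
      · simp
    rw [hn] at this
    simp only [Nat.add_sub_cancel]
    push_cast
    linear_combination this

theorem phi_nonpos {s : ℝ} (hs : s ≤ 0) (n : ℕ) : iteratedDeriv n expNegInvGlue s = 0 := by
  induction n using Nat.strong_induction_on with
  | _ n ih =>
    rcases n with _ | n
    · simpa using hs
    · rcases hs.lt_or_eq with h | h
      · have h1 := phi_rec n s
        rw [ih n (by omega), ih (n - 1) (by omega)] at h1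
        have h2 : s ^ 2 ≠ 0 := pow_ne_zero 2 h.ne
        simpa [h2] using h1
      · have h1 := phi_rec (n + 1) s
        simp only [Nat.add_sub_cancel] at h1
        rw [ih n (by omega), h] at h1
        rw [h]
        simpa using h1.symm

def phiStep (s : QC) (n : ℕ) (p : QC × QC) : QC × QC :=
  (qmul (qadd (qmul (qadd (1, 0, 0) (qneg (qmul (qnat (2 * n)) s))) p.1)
    (qneg (qmul (qnat (n * (n - 1))) p.2))) (qmul (qinv s) (qinv s)), p.1)

def phiCode (s : QC) (n : ℕ) : QC × QC :=
  Nat.rec ((1, 0, 0), (0, 0, 0)) (fun n p => phiStep s n p) n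

theorem cPhiCode {f : α → QC} {g : α → ℕ} (hf : Computable f) (hg : Computable g) :
    Computable fun a => phiCode (f a) (g a) := by
  unfold phiCode
  refine Computable.nat_rec (f := g) (g := fun _ => (((1, 0, 0), (0, 0, 0)) : QC × QC))
    (h := fun (a : α) (q : ℕ × (QC × QC)) => phiStep (f a) q.1 q.2) hg (Computable.const _) ?_
  unfold phiStep
  have cs : Computable fun p : α × (ℕ × (QC × QC)) => f p.1 := hf.comp Computable.fst
  have cn : Computable fun p : α × (ℕ × (QC × QC)) => p.2.1 :=
    Computable.fst.comp Computable.snd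
  have cp1 : Computable fun p : α × (ℕ × (QC × QC)) => p.2.2.1 :=
    Computable.fst.comp (Computable.snd.comp Computable.snd)
  have cp2 : Computable fun p : α × (ℕ × (QC × QC)) => p.2.2.2 :=
    Computable.snd.comp (Computable.snd.comp Computable.snd)
  refine Computable.pair ?_ cp1
  refine cQmul (cQadd (cQmul (cQadd (Computable.const _) (cQneg (cQmul
    (cQnat (cMul (cConst 2) cn)) cs))) cp1) (cQneg (cQmul (cQnat (cMul cn
    (cSub cn (cConst 1)))) cp2))) (cQmul (cQinv cs) (cQinv cs))

theorem phi_pos_formula (s : QC) (hs : 0 < qv s) (n : ℕ) :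
    iteratedDeriv n expNegInvGlue (qv s) =
      qv (phiCode s n).1 * Real.exp (-(qv s)⁻¹) ∧
    (n : ℝ) * ((n : ℝ) - 1) * iteratedDeriv (n - 1) expNegInvGlue (qv s) =
      (n : ℝ) * ((n : ℝ) - 1) * (qv (phiCode s n).2 * Real.exp (-(qv s)⁻¹)) := by
  induction n with
  | zero =>
    constructor
    · simp [phiCode, expNegInvGlue, not_le.mpr hs]
      norm_num [qv]
    · simp
  | succ n ih =>
    have e : phiCode s (n + 1) = phiStep s n (phiCode s n) := rfl
    obtain ⟨ih1, ih2⟩ := ih
    have h2 : (qv s) ^ 2 ≠ 0 := by positivity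
    constructor
    · have h1 := phi_rec n (qv s)
      rw [ih2] at h1
      have h3 : iteratedDeriv (n + 1) expNegInvGlue (qv s) =
          ((1 - 2 * n * qv s) * iteratedDeriv n expNegInvGlue (qv s) -
            (n : ℝ) * ((n : ℝ) - 1) * (qv (phiCode s n).2 * Real.exp (-(qv s)⁻¹))) *
            ((qv s)⁻¹ * (qv s)⁻¹) := by
        rw [← mul_inv, ← sq, eq_mul_inv_iff_mul_eq₀ h2]
        linarith
      rw [h3, e]
      unfold phiStep
      simp only [qv_qmul, qv_qadd, qv_qneg, qv_qnat, qv_qinv]
      rw [ih1]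
      have h4 : qv (1, 0, 0) = 1 := by norm_num [qv]
      have h5 : ((n * (n - 1) : ℕ) : ℝ) = (n : ℝ) * ((n : ℝ) - 1) := by
        rcases n with _ | n
        · simp
        · push_cast; simp
      rw [h4, h5]
      push_cast
      ring
    · rw [e]
      unfold phiStep
      simp only [Nat.add_sub_cancel]
      rw [ih1]

theorem effSmooth_phi : EffSmooth fun _ : α => expNegInvGlue := by
  refine ⟨fun _ => contDiff_phi, ?_⟩
  have cs : Computable fun p : α × ℕ × QC => p.2.2 := Computable.snd.comp Computable.snd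
  have cn : Computable fun p : α × ℕ × QC => p.2.1 := Computable.fst.comp Computable.snd
  have cpos : Computable fun p : α × ℕ × QC => decide (p.2.2.2.1 < p.2.2.1) :=
    cLt (c21 cs) (c1 cs)
  have r1 : RatComp fun p : α × ℕ × QC => qv (phiCode p.2.2 p.2.1).1 :=
    ⟨fun p => (phiCode p.2.2 p.2.1).1, Computable.fst.comp (cPhiCode cs cn), fun _ => rfl⟩
  have r2 : RatComp fun p : α × ℕ × QC => if p.2.2.2.1 < p.2.2.1 then (qv p.2.2)⁻¹ else 0 :=
    RatComp.ite cpos (RatComp.qv.comp cs).inv RatComp.zero
  have hpos : ∀ s : QC, s.2.1 < s.1 ↔ 0 < qv s := by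
    intro s
    unfold qv
    have h1 : (0 : ℝ) < (s.2.2 : ℝ) + 1 := by positivity
    rw [div_pos_iff_of_pos_right h1, sub_pos]
    exact_mod_cast Iff.rfl
  have r3 := r2.expNeg (by
    intro p
    split_ifs with h
    · have := (hpos p.2.2).1 h
      positivity
    · exact le_refl _)
  refine (CompReal.ite cpos (r1.compReal.mul r3) RatComp.zero.compReal).of_eq fun p => ?_
  split_ifs with h
  · exact ((phi_pos_formula p.2.2 ((hpos _).1 h) p.2.1).1).symm
  · exact (phi_nonpos (not_lt.mp fun h' => h ((hpos _).2 h')) p.2.1).symm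

noncomputable def bump (s : ℝ) : ℝ := expNegInvGlue s * expNegInvGlue (1 - s)

theorem effSmooth_bump : EffSmooth fun _ : α => bump := by
  have h1 : EffSmooth fun (_ : α) (x : ℝ) => expNegInvGlue (-1 * x + 1) :=
    EffSmooth.affine effSmooth_phi (c := fun _ => -1) (d := fun _ => 1)
      (RatComp.one.neg) RatComp.one
  exact (effSmooth_phi.mul h1).of_eq fun a x => by
    unfold bump
    ring_nf

end Vale.Agent.P113.L2
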