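import Mathlib
import Vale.Agent.P113.L2.CompBump

open scoped ContDiff Topology

namespace Vale.Agent.P113.L2

theorem contDiff_bump : ContDiff ℝ ∞ bump :=
  (effSmooth_bump (α := Unit)).1 ()

theorem iteratedDeriv_bump (n : ℕ) (s : ℝ) :
    iteratedDeriv n bump s = ∑ i ∈ Finset.range (n + 1),
      (n.choose i : ℝ) * iteratedDeriv i expNegInvGlue s *
        ((-1) ^ (n - i) * iteratedDeriv (n - i) expNegInvGlue (1 - s)) := by
  have h1 : ContDiff ℝ ∞ fun s => expNegInvGlue (1 - s) :=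
    contDiff_phi.comp (contDiff_const.sub contDiff_id)
  have h2 := iteratedDeriv_fun_mul (n := n) (x := s) (f := expNegInvGlue)
    (g := fun s => expNegInvGlue (1 - s)) (contDiff_nat contDiff_phi n).contDiffAt
    (contDiff_nat h1 n).contDiffAt
  have h3 : (fun s => expNegInvGlue s * expNegInvGlue (1 - s)) = bump := rfl
  rw [h3] at h2
  rw [h2]
  refine Finset.sum_congr rfl fun i _ => ?_
  rw [iteratedDeriv_comp_const_sub]
  simp

theorem iteratedDeriv_bump_of_le {s : ℝ} (hs : s ≤ 0) (n : ℕ) : iteratedDeriv n bump s = 0 := by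
  rw [iteratedDeriv_bump]
  refine Finset.sum_eq_zero fun i _ => ?_
  rw [phi_nonpos hs]
  ring

theorem iteratedDeriv_bump_of_ge {s : ℝ} (hs : 1 ≤ s) (n : ℕ) : iteratedDeriv n bump s = 0 := by
  rw [iteratedDeriv_bump]
  refine Finset.sum_eq_zero fun i _ => ?_
  rw [phi_nonpos (s := 1 - s) (by linarith)]
  ring

theorem bump_nonneg (s : ℝ) : 0 ≤ bump s :=
  mul_nonneg (expNegInvGlue.nonneg _) (expNegInvGlue.nonneg _)

theorem bump_of_le {s : ℝ} (hs : s ≤ 0) : bump s = 0 := by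
  have := iteratedDeriv_bump_of_le hs 0
  simpa using this

theorem bump_of_ge {s : ℝ} (hs : 1 ≤ s) : bump s = 0 := by
  have := iteratedDeriv_bump_of_ge hs 0
  simpa using this

theorem bump_pos {s : ℝ} (h0 : 0 < s) (h1 : s < 1) : 0 < bump s :=
  mul_pos (expNegInvGlue.pos_of_pos h0) (expNegInvGlue.pos_of_pos (by linarith))

theorem contDiff_iteratedDeriv {f : ℝ → ℝ} (hf : ContDiff ℝ ∞ f) (k : ℕ) :
    ContDiff ℝ ∞ (iteratedDeriv k f) := by
  rw [iteratedDeriv_eq_iterate]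
  exact hf.iterate_deriv k

theorem exists_bound_bump (n : ℕ) : ∃ C : ℝ, 0 ≤ C ∧ ∀ s, |iteratedDeriv n bump s| ≤ C := by
  have hc : Continuous (iteratedDeriv n bump) := (contDiff_iteratedDeriv contDiff_bump n).continuous
  obtain ⟨C, hC⟩ := (isCompact_Icc (a := (0 : ℝ)) (b := 1)).exists_bound_of_continuousOn
    hc.continuousOn
  refine ⟨max C 0, le_max_right _ _, fun s => ?_⟩
  by_cases h : s ∈ Set.Icc (0 : ℝ) 1
  · exact (hC s h).trans (le_max_left _ _)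
  · have h1 : s ≤ 0 ∨ 1 ≤ s := by
      by_contra hcon
      push Not at hcon
      exact h ⟨hcon.1.le, hcon.2.le⟩
    rcases h1 with h1 | h1
    · rw [iteratedDeriv_bump_of_le h1]; simp
    · rw [iteratedDeriv_bump_of_ge h1]; simp

noncomputable def Gs (θ : ℕ → ℝ) (y : ℝ) : ℝ := ∑' k : ℕ, θ k * bump (2 ^ (k + 1) * y - 1)

theorem contDiff_term (θ : ℕ → ℝ) (k : ℕ) :
    ContDiff ℝ ∞ fun y : ℝ => θ k * bump (2 ^ (k + 1) * y - 1) :=
  contDiff_const.mul (contDiff_bump.comp ((contDiff_const.mul contDiff_id).sub contDiff_const))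

theorem iteratedDeriv_term (θ : ℕ → ℝ) (k n : ℕ) (y : ℝ) :
    iteratedDeriv n (fun y : ℝ => θ k * bump (2 ^ (k + 1) * y - 1)) y =
      θ k * ((2 ^ (k + 1)) ^ n * iteratedDeriv n bump (2 ^ (k + 1) * y - 1)) := by
  rw [iteratedDeriv_const_mul_field]
  have e1 : iteratedDeriv n (fun y : ℝ => bump (2 ^ (k + 1) * y - 1)) =
      fun x => (2 ^ (k + 1)) ^ n * iteratedDeriv n (fun y => bump (y - 1)) (2 ^ (k + 1) * x) :=
    iteratedDeriv_comp_const_mul (f := fun y => bump (y - 1))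
      ((contDiff_nat contDiff_bump n).comp (contDiff_id.sub contDiff_const)) (2 ^ (k + 1) : ℝ)
  rw [e1, iteratedDeriv_comp_sub_const]

theorem Gs_main {θ : ℕ → ℝ} (hθ : ∀ k, |θ k| ≤ 1 / (k.factorial : ℝ)) :
    ContDiff ℝ ∞ (Gs θ) ∧ ∀ n y, iteratedDeriv n (Gs θ) y =
      ∑' k : ℕ, θ k * ((2 ^ (k + 1)) ^ n * iteratedDeriv n bump (2 ^ (k + 1) * y - 1)) := by
  choose C hC0 hC using exists_bound_bump
  let v : ℕ → ℕ → ℝ := fun n k => (C n * 2 ^ n) * (((2 : ℝ) ^ n) ^ k / (k.factorial : ℝ))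
  have hv : ∀ n : ℕ, Summable (v n) := fun n =>
    (Real.summable_pow_div_factorial ((2 : ℝ) ^ n)).mul_left _
  have hb : ∀ (n k : ℕ) (y : ℝ),
      ‖iteratedFDeriv ℝ n (fun y : ℝ => θ k * bump (2 ^ (k + 1) * y - 1)) y‖ ≤ v n k := by
    intro n k y
    rw [norm_iteratedFDeriv_eq_norm_iteratedDeriv, iteratedDeriv_term, Real.norm_eq_abs, abs_mul,
      abs_mul]
    have h1 : |((2 : ℝ) ^ (k + 1)) ^ n| = 2 ^ n * ((2 : ℝ) ^ n) ^ k := by
      rw [abs_of_nonneg (by positivity), ← pow_mul, ← pow_mul, ← pow_add]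
      congr 1
      ring
    rw [h1]
    have h2 := hθ k
    have h3 := hC n (2 ^ (k + 1) * y - 1)
    simp only [v]
    calc |θ k| * (2 ^ n * ((2 : ℝ) ^ n) ^ k * |iteratedDeriv n bump (2 ^ (k + 1) * y - 1)|)
        ≤ (1 / (k.factorial : ℝ)) * (2 ^ n * ((2 : ℝ) ^ n) ^ k * C n) := by gcongr
      _ = _ := by ring
  have hcd : ContDiff ℝ ∞ (Gs θ) :=
    contDiff_tsum (N := ⊤) (v := v) (fun k => contDiff_term θ k) (fun n _ => hv n)
      (fun n k y _ => hb n k y)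
  refine ⟨hcd, fun n y => ?_⟩
  have h := iteratedFDeriv_tsum_apply (N := ⊤) (v := v) (k := n) (fun k => contDiff_term θ k)
    (fun n _ => hv n) (fun n k y _ => hb n k y) le_top y
  have h4 : iteratedDeriv n (Gs θ) y = iteratedFDeriv ℝ n (Gs θ) y (fun _ => 1) := rfl
  rw [h4]
  have h5 : (Gs θ) = fun y => ∑' k : ℕ, θ k * bump (2 ^ (k + 1) * y - 1) := rfl
  rw [h5, h]
  have hs : Summable fun k : ℕ =>
      iteratedFDeriv ℝ n (fun y : ℝ => θ k * bump (2 ^ (k + 1) * y - 1)) y :=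
    Summable.of_norm_bounded (hv n) fun k => hb n k y
  have h6 := ContinuousMultilinearMap.tsum_eval hs (fun _ => (1 : ℝ))
  rw [h6]
  refine tsum_congr fun k => ?_
  exact iteratedDeriv_term θ k n y

theorem term_eq_zero (θ : ℕ → ℝ) {k : ℕ} (n : ℕ) {y : ℝ}
    (h : 2 ^ (k + 1) * y ≤ 1 ∨ 2 ≤ 2 ^ (k + 1) * y) :
    θ k * ((2 ^ (k + 1)) ^ n * iteratedDeriv n bump (2 ^ (k + 1) * y - 1)) = 0 := by
  rcases h with h | h
  · rw [iteratedDeriv_bump_of_le (by linarith)]; ring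
  · rw [iteratedDeriv_bump_of_ge (by linarith)]; ring

theorem Gs_outside {θ : ℕ → ℝ} (hθ : ∀ k, |θ k| ≤ 1 / (k.factorial : ℝ)) (n : ℕ) {y : ℝ}
    (hy : y ≤ 0 ∨ 1 ≤ y) : iteratedDeriv n (Gs θ) y = 0 := by
  rw [(Gs_main hθ).2]
  have : ∀ k : ℕ, θ k * ((2 ^ (k + 1)) ^ n * iteratedDeriv n bump (2 ^ (k + 1) * y - 1)) = 0 := by
    intro k
    apply term_eq_zero
    have h2 : (1 : ℝ) ≤ 2 ^ k := one_le_pow₀ (by norm_num)
    rcases hy with hy | hy
    · left
      have : (2 : ℝ) ^ (k + 1) * y ≤ 0 := mul_nonpos_of_nonneg_of_nonpos (by positivity) hy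
      linarith
    · right
      rw [pow_succ]
      nlinarith
  simp [this]

theorem Gs_finite {θ : ℕ → ℝ} (hθ : ∀ k, |θ k| ≤ 1 / (k.factorial : ℝ)) (n : ℕ) (s : QC) :
    iteratedDeriv n (Gs θ) (qv s) = ∑ k ∈ Finset.range (s.2.2 + 1),
      θ k * ((2 ^ (k + 1)) ^ n * iteratedDeriv n bump (2 ^ (k + 1) * qv s - 1)) := by
  rw [(Gs_main hθ).2]
  apply tsum_eq_sum
  intro k hk
  simp only [Finset.mem_range, not_lt] at hk
  apply term_eq_zero
  by_cases h : s.2.1 < s.1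
  · right
    have h1 : (1 : ℝ) / (s.2.2 + 1) ≤ qv s := by
      unfold qv
      apply div_le_div_of_nonneg_right _ (by positivity)
      have : ((s.2.1 + 1 : ℕ) : ℝ) ≤ s.1 := by exact_mod_cast h
      push_cast at this
      linarith
    have h2 : ((s.2.2 : ℝ) + 1) ≤ 2 ^ k := by
      have h3 : k < 2 ^ k := Nat.lt_two_pow_self
      have h4 : s.2.2 + 1 ≤ 2 ^ k := by omega
      exact_mod_cast h4
    have h5 : (0 : ℝ) < (s.2.2 : ℝ) + 1 := by positivity
    calc (2 : ℝ) = 2 * (((s.2.2 : ℝ) + 1) * (1 / (s.2.2 + 1))) := by field_simp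
      _ ≤ 2 * (2 ^ k * qv s) := by gcongr
      _ = _ := by ring
  · left
    have h1 : qv s ≤ 0 := by
      unfold qv
      apply div_nonpos_of_nonpos_of_nonneg _ (by positivity)
      have : (s.1 : ℝ) ≤ s.2.1 := by exact_mod_cast (not_lt.mp h)
      linarith
    have : (2 : ℝ) ^ (k + 1) * qv s ≤ 0 := mul_nonpos_of_nonneg_of_nonpos (by positivity) h1
    linarith

end Vale.Agent.P113.L2
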