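import Mathlib
import Vale.Agent.P113.L2.GSum

open scoped ContDiff Topology

namespace Vale.Agent.P113.L2

variable {α β : Type*} [Primcodable α] [Primcodable β]

theorem effSmooth_Gs {θ : α → ℕ → ℝ} (hθ : ∀ a k, |θ a k| ≤ 1 / (k.factorial : ℝ))
    (hc : CompReal fun p : α × ℕ => θ p.1 p.2) : EffSmooth fun a => Gs (θ a) := by
  refine ⟨fun a => (Gs_main (hθ a)).1, ?_⟩
  have ca : Computable fun q : (α × ℕ × QC) × ℕ => q.1.1 := Computable.fst.comp Computable.fst
  have cn : Computable fun q : (α × ℕ × QC) × ℕ => q.1.2.1 :=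
    Computable.fst.comp (Computable.snd.comp Computable.fst)
  have cx : Computable fun q : (α × ℕ × QC) × ℕ => q.1.2.2 :=
    Computable.snd.comp (Computable.snd.comp Computable.fst)
  have ck : Computable fun q : (α × ℕ × QC) × ℕ => q.2 := Computable.snd
  have r2 : RatComp fun q : (α × ℕ × QC) × ℕ => (2 : ℝ) ^ (q.2 + 1) := by
    have := (RatComp.natConst (α := (α × ℕ × QC) × ℕ) 2).pow (cAdd ck (cConst 1))
    exact this.of_eq fun _ => by norm_num
  have rarg : RatComp fun q : (α × ℕ × QC) × ℕ => (2 : ℝ) ^ (q.2 + 1) * qv q.1.2.2 - 1 :=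
    (r2.mul (RatComp.qv.comp cx)).sub RatComp.one
  obtain ⟨X, hX, hX'⟩ := rarg
  have hb : CompReal fun q : (α × ℕ × QC) × ℕ => iteratedDeriv q.1.2.1 bump (qv (X q)) :=
    (effSmooth_bump (α := Unit)).2.comp (g := fun q : (α × ℕ × QC) × ℕ => ((), (q.1.2.1, X q)))
      ((Computable.const ()).pair (cn.pair hX))
  have h := CompReal.sum (m := fun p : α × ℕ × QC => p.2.2.2.2 + 1)
    (cAdd (c22 (Computable.snd.comp Computable.snd)) (cConst 1))
    (f := fun q : (α × ℕ × QC) × ℕ => θ q.1.1 q.2 *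
      (((2 : ℝ) ^ (q.2 + 1)) ^ q.1.2.1 *
        iteratedDeriv q.1.2.1 bump (2 ^ (q.2 + 1) * qv q.1.2.2 - 1))) (by
      refine CompReal.mul ?_ (CompReal.mul ?_ ?_)
      · exact hc.comp (g := fun q : (α × ℕ × QC) × ℕ => (q.1.1, q.2)) (ca.pair ck)
      · exact (r2.pow cn).compReal
      · exact hb.of_eq fun q => by rw [← hX' q])
  refine h.of_eq fun p => ?_
  exact (Gs_finite (hθ p.1) p.2.1 p.2.2).symm

noncomputable def per (f : ℝ → ℝ) (y : ℝ) : ℝ := f (Int.fract y)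

theorem per_periodic (f : ℝ → ℝ) : Function.Periodic (per f) 1 := by
  intro y
  unfold per
  rw [Int.fract_add_one]

theorem per_eventually {f : ℝ → ℝ} (h0 : ∀ y, y ≤ 0 ∨ 1 ≤ y → f y = 0) (y0 : ℝ) :
    per f =ᶠ[𝓝 y0] fun y => f (y - ⌊y0⌋) + f (y - ⌊y0⌋ + 1) := by
  have hmem : Set.Ioo ((⌊y0⌋ : ℝ) - 1) ((⌊y0⌋ : ℝ) + 1) ∈ 𝓝 y0 := by
    apply Ioo_mem_nhds
    · have := Int.floor_le y0
      linarith
    · exact Int.lt_floor_add_one y0
  filter_upwards [hmem] with y hy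
  unfold per
  by_cases h : (⌊y0⌋ : ℝ) ≤ y
  · have hf : ⌊y⌋ = ⌊y0⌋ := by
      rw [Int.floor_eq_iff]
      exact ⟨h, hy.2⟩
    have e1 : Int.fract y = y - ⌊y0⌋ := by
      rw [← hf]; exact (Int.self_sub_floor y).symm
    rw [e1, h0 (y - ⌊y0⌋ + 1) (Or.inr (by linarith))]
    ring
  · push Not at h
    have hf : ⌊y⌋ = ⌊y0⌋ - 1 := by
      rw [Int.floor_eq_iff]
      push_cast
      constructor
      · exact hy.1.le
      · linarith
    have e1 : Int.fract y = y - ⌊y0⌋ + 1 := by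
      rw [← Int.self_sub_floor y, hf]
      push_cast
      ring
    rw [e1, h0 (y - ⌊y0⌋) (Or.inl (by linarith))]
    ring

theorem contDiff_per {f : ℝ → ℝ} (hf : ContDiff ℝ ∞ f) (h0 : ∀ y, y ≤ 0 ∨ 1 ≤ y → f y = 0) :
    ContDiff ℝ ∞ (per f) := by
  rw [contDiff_iff_contDiffAt]
  intro y0
  refine ContDiffAt.congr_of_eventuallyEq ?_ (per_eventually h0 y0)
  apply ContDiff.contDiffAt
  exact (hf.comp (contDiff_id.sub contDiff_const)).add
    (hf.comp ((contDiff_id.sub contDiff_const).add contDiff_const))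

theorem iteratedDeriv_per {f : ℝ → ℝ} (hf : ContDiff ℝ ∞ f)
    (h0 : ∀ n y, y ≤ 0 ∨ 1 ≤ y → iteratedDeriv n f y = 0) (n : ℕ) (y : ℝ) :
    iteratedDeriv n (per f) y = iteratedDeriv n f (Int.fract y) := by
  have h00 : ∀ y, y ≤ 0 ∨ 1 ≤ y → f y = 0 := fun y hy => by simpa using h0 0 y hy
  rw [Filter.EventuallyEq.iteratedDeriv_eq n (per_eventually h00 y)]
  have hA : ContDiff ℝ ∞ fun z : ℝ => f (z - ⌊y⌋) := hf.comp (contDiff_id.sub contDiff_const)
  have hB : ContDiff ℝ ∞ fun z : ℝ => f (z - ⌊y⌋ + 1) :=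
    hf.comp ((contDiff_id.sub contDiff_const).add contDiff_const)
  rw [iteratedDeriv_fun_add (contDiff_nat hA n).contDiffAt (contDiff_nat hB n).contDiffAt]
  have e1 : iteratedDeriv n (fun z : ℝ => f (z - ⌊y⌋)) y = iteratedDeriv n f (y - ⌊y⌋) := by
    rw [iteratedDeriv_comp_sub_const]
  have e2 : iteratedDeriv n (fun z : ℝ => f (z - ⌊y⌋ + 1)) y =
      iteratedDeriv n f (y - ⌊y⌋ + 1) := by
    have : (fun z : ℝ => f (z - ⌊y⌋ + 1)) = fun z => f (z + (1 - ⌊y⌋)) := by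
      funext z; congr 1; ring
    rw [this, iteratedDeriv_comp_add_const]
    simp only
    congr 1; ring
  rw [e1, e2, h0 n (y - ⌊y⌋ + 1) (Or.inr ?_), add_zero, Int.self_sub_floor]
  have := Int.floor_le y
  linarith

def qfract (s : QC) : QC := ((s.1 + s.2.1 * s.2.2) % (s.2.2 + 1), 0, s.2.2)

theorem cQfract {f : α → QC} (hf : Computable f) : Computable fun a => qfract (f a) := by
  unfold qfract
  refine Computable.pair ?_ (Computable.pair (cConst 0) (c22 hf))
  exact cMod (cAdd (c1 hf) (cMul (c21 hf) (c22 hf))) (cAdd (c22 hf) (cConst 1))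

theorem qv_qfract (s : QC) : qv (qfract s) = Int.fract (qv s) := by
  set d := s.2.2 + 1 with hd
  set m := s.1 + s.2.1 * s.2.2 with hm
  have hdpos : (0 : ℝ) < (s.2.2 : ℝ) + 1 := by positivity
  obtain ⟨q, hq⟩ : ∃ q, q = m / d := ⟨_, rfl⟩
  have h1 : (m : ℝ) = ((m % d : ℕ) : ℝ) + d * (q : ℝ) := by
    have := Nat.mod_add_div m d
    rw [hq]
    exact_mod_cast this.symm
  have h2 : qv s = qv (qfract s) + ((q : ℤ) - (s.2.1 : ℤ) : ℤ) := by
    unfold qv qfract
    simp only [← hm, ← hd]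
    push_cast
    have h3 : (m : ℝ) = (s.1 : ℝ) + s.2.1 * s.2.2 := by rw [hm]; push_cast; ring
    have h4 : (d : ℝ) = (s.2.2 : ℝ) + 1 := by rw [hd]; push_cast; ring
    rw [h3, h4] at h1
    field_simp
    linarith
  rw [h2, Int.fract_add_intCast, eq_comm, Int.fract_eq_self]
  unfold qv qfract
  simp only [← hm, ← hd]
  constructor
  · push_cast
    simp only [sub_zero]
    positivity
  · rw [div_lt_one hdpos]
    have : m % d < d := Nat.mod_lt _ (by omega)
    have h5 : ((m % d : ℕ) : ℝ) < d := by exact_mod_cast this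
    have h4 : (d : ℝ) = (s.2.2 : ℝ) + 1 := by rw [hd]; push_cast; ring
    push_cast at h5 ⊢
    linarith

theorem EffSmooth.per {F : α → ℝ → ℝ} (hF : EffSmooth F)
    (h0 : ∀ a n y, y ≤ 0 ∨ 1 ≤ y → iteratedDeriv n (F a) y = 0) :
    EffSmooth fun a => per (F a) := by
  refine ⟨fun a => contDiff_per (hF.1 a) fun y hy => by simpa using h0 a 0 y hy, ?_⟩
  have h := hF.2.comp (g := fun p : α × ℕ × QC => (p.1, (p.2.1, qfract p.2.2)))
    (Computable.fst.pair ((Computable.fst.comp Computable.snd).pair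
      (cQfract (Computable.snd.comp Computable.snd))))
  refine h.of_eq fun p => ?_
  simp only
  rw [iteratedDeriv_per (hF.1 p.1) (h0 p.1), qv_qfract]

end Vale.Agent.P113.L2
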