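import Mathlib
import Vale.Agent.P113.L2.GEff

open scoped ContDiff Topology

namespace Vale.Agent.P113.L2

variable {α β : Type*} [Primcodable α] [Primcodable β]

theorem CompReal.limit {G : α × ℕ → ℝ} (hG : CompReal G) {K : α → ℕ} (hK : Computable K)
    {f : α → ℝ} (h : ∀ a n, |f a - G (a, n)| ≤ K a / ((n : ℝ) + 1)) : CompReal f := by
  obtain ⟨F, hF, hF'⟩ := hG
  let m : α × ℕ → ℕ := fun p => 2 * (K p.1 + 1) * (p.2 + 1)
  have hm : Computable m := cMul (cMul (cConst 2) (cAdd (hK.comp Computable.fst) (cConst 1)))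
    (cAdd Computable.snd (cConst 1))
  refine ⟨fun p => F ((p.1, m p), 2 * p.2 + 1), ?_, fun a n => ?_⟩
  · exact hF.comp (((Computable.fst.pair hm)).pair (cAdd (cMul (cConst 2) Computable.snd)
      (cConst 1)))
  · simp only
    have h1 := hF' (a, m (a, n)) (2 * n + 1)
    have h2 := h a (m (a, n))
    have h3 : (K a : ℝ) / ((m (a, n) : ℝ) + 1) ≤ 1 / (2 * ((n : ℝ) + 1)) := by
      rw [div_le_div_iff₀ (by positivity) (by positivity)]
      simp only [m]
      push_cast
      have : (0 : ℝ) ≤ K a := by positivity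
      have : (0 : ℝ) ≤ n := by positivity
      nlinarith
    have h4 : (1 : ℝ) / (((2 * n + 1 : ℕ) : ℝ) + 1) = 1 / (2 * ((n : ℝ) + 1)) := by
      push_cast; congr 1; ring
    rw [h4] at h1
    have h5 : (1 : ℝ) / (2 * ((n : ℝ) + 1)) + 1 / (2 * ((n : ℝ) + 1)) = 1 / ((n : ℝ) + 1) := by
      field_simp
      norm_num
    calc |f a - qv (F ((a, m (a, n)), 2 * n + 1))|
        = |(f a - G (a, m (a, n))) + (G (a, m (a, n)) - qv (F ((a, m (a, n)), 2 * n + 1)))| := by
          ring_nf
      _ ≤ _ := abs_add_le _ _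
      _ ≤ _ := by rw [← h5]; exact add_le_add (h2.trans h3) h1

noncomputable def HB (B : ℝ → ℝ) (t : ℝ) : ℝ := ∫ s in (0 : ℝ)..t, B s

theorem hasDerivAt_HB {B : ℝ → ℝ} (hB : Continuous B) (t : ℝ) : HasDerivAt (HB B) (B t) t :=
  intervalIntegral.integral_hasDerivAt_right (hB.intervalIntegrable _ _)
    (hB.stronglyMeasurableAtFilter _ _) hB.continuousAt

theorem deriv_HB {B : ℝ → ℝ} (hB : Continuous B) : deriv (HB B) = B :=
  funext fun t => (hasDerivAt_HB hB t).deriv

theorem contDiff_HB {B : ℝ → ℝ} (hB : ContDiff ℝ ∞ B) : ContDiff ℝ ∞ (HB B) := by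
  rw [show (∞ : WithTop ℕ∞) = ∞ + 1 from rfl, contDiff_succ_iff_deriv]
  refine ⟨fun t => (hasDerivAt_HB hB.continuous t).differentiableAt, by simp, ?_⟩
  rw [deriv_HB hB.continuous]
  exact hB

theorem HB_of_le {B : ℝ → ℝ} (h0 : ∀ s ≤ 0, B s = 0) {t : ℝ} (ht : t ≤ 0) : HB B t = 0 := by
  unfold HB
  rw [intervalIntegral.integral_congr (g := fun _ => (0 : ℝ))]
  · simp
  · intro s hs
    rw [Set.uIcc_of_ge ht] at hs
    exact h0 s hs.2

theorem exists_lipschitz {B : ℝ → ℝ} (hB : ContDiff ℝ ∞ B)
    (hb : ∃ C : ℝ, ∀ s, |deriv B s| ≤ C) : ∃ L : ℕ, ∀ x y, |B x - B y| ≤ L * |x - y| := by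
  obtain ⟨C, hC⟩ := hb
  obtain ⟨L, hL⟩ := exists_nat_ge (max C 0)
  refine ⟨L, fun x y => ?_⟩
  have h := Convex.norm_image_sub_le_of_norm_deriv_le (f := B) (s := Set.univ) (x := y) (y := x)
    (C := L) (fun z _ => (hB.differentiable (by simp)).differentiableAt)
    (fun z _ => by
      rw [Real.norm_eq_abs]
      exact (hC z).trans ((le_max_left _ _).trans hL)) convex_univ (Set.mem_univ _)
    (Set.mem_univ _)
  simpa using h

theorem riemann_error {B : ℝ → ℝ} (hB : Continuous B) {L : ℕ}
    (hL : ∀ x y, |B x - B y| ≤ L * |x - y|) {h : ℝ} (hh : 0 ≤ h) (i : ℕ) :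
    |HB B (i * h) - h * ∑ j ∈ Finset.range i, B (j * h)| ≤ i * (L * h ^ 2) := by
  induction i with
  | zero => simp [HB]
  | succ i ih =>
    have e1 : HB B (((i + 1 : ℕ) : ℝ) * h) =
        HB B (i * h) + ∫ s in (i * h)..(((i + 1 : ℕ) : ℝ) * h), B s := by
      unfold HB
      rw [intervalIntegral.integral_add_adjacent_intervals]
      · exact hB.intervalIntegrable _ _
      · exact hB.intervalIntegrable _ _
    have e2 : (∫ s in (i * h)..(((i + 1 : ℕ) : ℝ) * h), B s) - h * B (i * h) =
        ∫ s in (i * h)..(((i + 1 : ℕ) : ℝ) * h), (B s - B (i * h)) := by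
      rw [intervalIntegral.integral_sub (hB.intervalIntegrable _ _)
        (continuous_const.intervalIntegrable _ _)]
      simp only [intervalIntegral.integral_const, smul_eq_mul]
      push_cast
      ring
    have e3 : |(∫ s in (i * h)..(((i + 1 : ℕ) : ℝ) * h), B s) - h * B (i * h)| ≤ L * h ^ 2 := by
      rw [e2]
      have h1 := intervalIntegral.norm_integral_le_of_norm_le_const (a := (i * h : ℝ))
        (b := ((i + 1 : ℕ) : ℝ) * h) (C := L * h) (f := fun s => B s - B (i * h)) (by
          intro s hs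
          rw [Real.norm_eq_abs]
          refine (hL s (i * h)).trans ?_
          have hle : (i : ℝ) * h ≤ ((i + 1 : ℕ) : ℝ) * h := by push_cast; linarith
          rw [Set.uIoc_of_le hle] at hs
          have h3 : |s - i * h| ≤ h := by
            rw [abs_of_nonneg (by linarith [hs.1])]
            have := hs.2
            push_cast at this
            linarith
          gcongr)
      rw [Real.norm_eq_abs] at h1
      refine h1.trans (le_of_eq ?_)
      have : ((i + 1 : ℕ) : ℝ) * h - i * h = h := by push_cast; ring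
      rw [this, abs_of_nonneg hh]
      ring
    rw [Finset.sum_range_succ, e1]
    calc |HB B (i * h) + (∫ s in (i * h)..(((i + 1 : ℕ) : ℝ) * h), B s) -
          h * (∑ j ∈ Finset.range i, B (j * h) + B (i * h))|
        = |(HB B (i * h) - h * ∑ j ∈ Finset.range i, B (j * h)) +
          ((∫ s in (i * h)..(((i + 1 : ℕ) : ℝ) * h), B s) - h * B (i * h))| := by ring_nf
      _ ≤ _ := abs_add_le _ _
      _ ≤ i * (L * h ^ 2) + L * h ^ 2 := add_le_add ih e3
      _ = _ := by push_cast; ring

theorem iteratedDeriv_succ_HB {B : ℝ → ℝ} (hB : Continuous B) (n : ℕ) :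
    iteratedDeriv (n + 1) (HB B) = iteratedDeriv n B := by
  rw [iteratedDeriv_succ', deriv_HB hB]

theorem effSmooth_H : EffSmooth fun _ : α => HB bump := by
  refine ⟨fun _ => contDiff_HB contDiff_bump, ?_⟩
  obtain ⟨L, hL⟩ := exists_lipschitz contDiff_bump (by
    obtain ⟨C, _, hC⟩ := exists_bound_bump 1
    exact ⟨C, fun s => by simpa [iteratedDeriv_one] using hC s⟩)
  have cs : Computable fun p : α × ℕ × QC => p.2.2 := Computable.snd.comp Computable.snd
  have cn : Computable fun p : α × ℕ × QC => p.2.1 := Computable.fst.comp Computable.snd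
  -- order zero
  have h0 : CompReal fun s : QC => HB bump (qv s) := by
    let K : QC → ℕ := fun s => L * (qabsBound s * qabsBound s)
    have hK : Computable K := cMul (cConst L) (cMul (cQabsBound Computable.id)
      (cQabsBound Computable.id))
    -- step size
    have rh : RatComp fun p : QC × ℕ => (if p.1.2.1 < p.1.1 then qv p.1 / ((p.2 : ℝ) + 1) else 0) := by
      refine RatComp.ite (cLt (c21 Computable.fst) (c1 Computable.fst)) ?_ RatComp.zero
      exact (RatComp.qv.comp Computable.fst).div ((RatComp.nat Computable.snd).add RatComp.one)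
    have rx : RatComp fun q : (QC × ℕ) × ℕ => (q.2 : ℝ) *
        (if q.1.1.2.1 < q.1.1.1 then qv q.1.1 / ((q.1.2 : ℝ) + 1) else 0) :=
      (RatComp.nat Computable.snd).mul (rh.comp (g := fun q : (QC × ℕ) × ℕ => q.1) Computable.fst)
    obtain ⟨X, hX, hX'⟩ := rx
    have hb : CompReal fun q : (QC × ℕ) × ℕ => iteratedDeriv 0 bump (qv (X q)) :=
      (effSmooth_bump (α := Unit)).2.comp (g := fun q : (QC × ℕ) × ℕ => ((), (0, X q)))
        ((Computable.const ()).pair ((Computable.const 0).pair hX))
    have hsum := CompReal.sum (m := fun p : QC × ℕ => p.2 + 1)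
      (cAdd Computable.snd (cConst 1)) hb
    have hG := rh.compReal.mul hsum
    refine CompReal.limit hG hK fun s n => ?_
    simp only [iteratedDeriv_zero]
    by_cases hs : s.2.1 < s.1
    · have hpos : 0 < qv s := by
        unfold qv
        have h1 : (0 : ℝ) < (s.2.2 : ℝ) + 1 := by positivity
        rw [div_pos_iff_of_pos_right h1, sub_pos]
        exact_mod_cast hs
      have hX'' : ∀ i, qv (X ((s, n), i)) = (i : ℝ) * (qv s / ((n : ℝ) + 1)) := by
        intro i
        have := hX' ((s, n), i)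
        simp only [hs, if_true] at this
        exact this.symm
      simp only [hs, if_true, hX'']
      have hr := riemann_error contDiff_bump.continuous hL
        (h := qv s / ((n : ℝ) + 1)) (by positivity) (n + 1)
      have e : (((n + 1 : ℕ) : ℝ)) * (qv s / ((n : ℝ) + 1)) = qv s := by
        push_cast; field_simp
      rw [e] at hr
      refine hr.trans ?_
      have e2 : (((n + 1 : ℕ) : ℝ)) * (L * (qv s / ((n : ℝ) + 1)) ^ 2) =
          L * (qv s ^ 2) / ((n : ℝ) + 1) := by
        push_cast; field_simp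
      rw [e2]
      apply div_le_div_of_nonneg_right _ (by positivity)
      simp only [K]
      push_cast
      have h3 := abs_qv_le s
      rw [abs_of_pos hpos] at h3
      have : qv s ^ 2 ≤ (qabsBound s : ℝ) * qabsBound s := by nlinarith
      gcongr
    · have hneg : qv s ≤ 0 := by
        unfold qv
        apply div_nonpos_of_nonpos_of_nonneg _ (by positivity)
        have : (s.1 : ℝ) ≤ s.2.1 := by exact_mod_cast (not_lt.mp hs)
        linarith
      rw [HB_of_le (fun s hs => bump_of_le hs) hneg]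
      simp only [hs, if_false, zero_mul, sub_zero, abs_zero]
      positivity
  -- general order
  have hpred : CompReal fun p : α × ℕ × QC => iteratedDeriv (p.2.1 - 1) bump (qv p.2.2) :=
    (effSmooth_bump (α := Unit)).2.comp (g := fun p : α × ℕ × QC => ((), (p.2.1 - 1, p.2.2)))
      ((Computable.const ()).pair ((cSub cn (cConst 1)).pair cs))
  refine (CompReal.ite (c := fun p : α × ℕ × QC => p.2.1 = 0) (cEq cn (cConst 0))
    (h0.comp cs) hpred).of_eq fun p => ?_
  split_ifs with h
  · rw [h]; simp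
  · obtain ⟨n, hn⟩ := Nat.exists_eq_succ_of_ne_zero h
    rw [hn, Nat.succ_eq_add_one, iteratedDeriv_succ_HB contDiff_bump.continuous]
    simp

end Vale.Agent.P113.L2
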