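import Mathlib
import Vale.Agent.P113.Unique
import Vale.Agent.P113.L2.HEff

open scoped ContDiff Topology
open Set

namespace Vale.Agent.P113.L2

noncomputable def cl (f : ℝ → ℝ) (y : UnitAddCircle) : ℝ := f (AddCircle.equivIco (1 : ℝ) 0 y : ℝ)

theorem cl_coe {f : ℝ → ℝ} (hf : Function.Periodic f 1) (x : ℝ) :
    cl f (x : UnitAddCircle) = f x := by
  unfold cl
  rw [AddCircle.coe_equivIco_mk_apply]
  simp only [div_one, mul_one] at *
  have h : Int.fract x = x - ⌊x⌋ := (Int.self_sub_floor x).symm
  rw [h]
  have := hf.sub_zsmul_eq (x := x) ⌊x⌋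
  simpa using this

theorem exists_rep (y : UnitAddCircle) : ∃ r : ℝ, (r : UnitAddCircle) = y :=
  QuotientAddGroup.mk_surjective y

theorem periodic_deriv {g : ℝ → ℝ} (hg : Function.Periodic g 1) :
    Function.Periodic (deriv g) 1 := by
  intro x
  have : (fun z => g (z + 1)) = g := funext hg
  have h := deriv_comp_add_const (f := g) 1 x
  rw [← h, this]

theorem periodic_iteratedDeriv {g : ℝ → ℝ} (hg : Function.Periodic g 1) (n : ℕ) :
    Function.Periodic (iteratedDeriv n g) 1 := by
  induction n with
  | zero => simpa using hg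
  | succ n ih => rw [iteratedDeriv_succ]; exact periodic_deriv ih

theorem hasDerivAt_cl {g : ℝ → ℝ} (hg : ContDiff ℝ ∞ g) (hp : Function.Periodic g 1)
    (y : UnitAddCircle) : HasDerivAt (fun s : ℝ => cl g (y + (s : UnitAddCircle)))
      (cl (deriv g) y) 0 := by
  obtain ⟨r, rfl⟩ := exists_rep y
  have e : (fun s : ℝ => cl g ((r : UnitAddCircle) + (s : UnitAddCircle))) =
      fun s => g (r + s) := by
    funext s
    rw [← AddCircle.coe_add, cl_coe hp]
  rw [e, cl_coe (periodic_deriv hp)]
  have h := (hg.differentiable (by simp)).differentiableAt (x := r + 0) |>.hasDerivAt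
  have h2 := h.comp_const_add r 0
  simpa using h2

theorem continuous_cl {g : ℝ → ℝ} (hg : Continuous g) (hp : Function.Periodic g 1) :
    Continuous (cl g) := by
  rw [(QuotientAddGroup.isQuotientMap_mk
    (N := AddSubgroup.zmultiples (1 : ℝ))).continuous_iff]
  refine hg.congr fun x => ?_
  exact (cl_coe hp x).symm

theorem move_apply (i j : Fin 3) (s : ℝ) (x : T3) :
    (move i s x) j = if i = j then x j + (s : UnitAddCircle) else x j := by
  unfold move proj
  by_cases h : i = j
  · subst h; simp
  · simp [h, Pi.single_apply, Ne.symm h]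

structure SP (n : ℕ) where
  A : Fin n → ℝ → ℝ
  g : Fin n → ℝ → ℝ
  c : Fin n → ℝ → ℝ
  hA : ∀ i, ContDiff ℝ ∞ (A i)
  hg : ∀ i, ContDiff ℝ ∞ (g i)
  hc : ∀ i, ContDiff ℝ ∞ (c i)
  pg : ∀ i, Function.Periodic (g i) 1
  pc : ∀ i, Function.Periodic (c i) 1

noncomputable def SP.f {n : ℕ} (S : SP n) : SField :=
  fun t x => ∑ i, S.A i t * cl (S.g i) (x 1) * cl (S.c i) (x 2)

noncomputable def SP.D {n : ℕ} (S : SP n) (a b d : ℕ) : SP n where
  A := fun i => iteratedDeriv a (S.A i)
  g := fun i => iteratedDeriv b (S.g i)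
  c := fun i => iteratedDeriv d (S.c i)
  hA := fun i => contDiff_iteratedDeriv (S.hA i) a
  hg := fun i => contDiff_iteratedDeriv (S.hg i) b
  hc := fun i => contDiff_iteratedDeriv (S.hc i) d
  pg := fun i => periodic_iteratedDeriv (S.pg i) b
  pc := fun i => periodic_iteratedDeriv (S.pc i) d

theorem SP.time {n : ℕ} (S : SP n) (a b d : ℕ) (t : ℝ) (x : T3) :
    HasDerivAt (fun s => (S.D a b d).f s x) ((S.D (a + 1) b d).f t x) t := by
  unfold SP.f SP.D
  apply HasDerivAt.fun_sum
  intro i _
  exact ((hasDerivAt_iteratedDeriv (S.hA i) a t).mul_const _).mul_const _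

theorem SP.dir0 {n : ℕ} (S : SP n) (a b d : ℕ) (t : ℝ) (x : T3) :
    HasDerivAt (fun s => (S.D a b d).f t (move 0 s x)) 0 0 := by
  have : (fun s => (S.D a b d).f t (move 0 s x)) = fun _ => (S.D a b d).f t x := by
    funext s
    unfold SP.f
    simp [move_apply]
  rw [this]
  exact hasDerivAt_const _ _

theorem SP.dir1 {n : ℕ} (S : SP n) (a b d : ℕ) (t : ℝ) (x : T3) :
    HasDerivAt (fun s => (S.D a b d).f t (move 1 s x)) ((S.D a (b + 1) d).f t x) 0 := by
  unfold SP.f SP.D
  apply HasDerivAt.fun_sum
  intro i _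
  simp only [move_apply, if_true, show ¬ ((1 : Fin 3) = 2) by decide, if_false]
  rw [iteratedDeriv_succ]
  exact ((hasDerivAt_cl (contDiff_iteratedDeriv (S.hg i) b)
    (periodic_iteratedDeriv (S.pg i) b) (x 1)).const_mul _).mul_const _

theorem SP.dir2 {n : ℕ} (S : SP n) (a b d : ℕ) (t : ℝ) (x : T3) :
    HasDerivAt (fun s => (S.D a b d).f t (move 2 s x)) ((S.D a b (d + 1)).f t x) 0 := by
  unfold SP.f SP.D
  apply HasDerivAt.fun_sum
  intro i _
  simp only [move_apply, if_true, show ¬ ((2 : Fin 3) = 1) by decide, if_false]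
  rw [iteratedDeriv_succ (f := S.c i)]
  exact (hasDerivAt_cl (contDiff_iteratedDeriv (S.hc i) d)
    (periodic_iteratedDeriv (S.pc i) d) (x 2)).const_mul _

theorem SP.D_zero {n : ℕ} (S : SP n) : (S.D 0 0 0).f = S.f := by
  unfold SP.f SP.D
  simp

theorem SP.mixed {n : ℕ} (S : SP n) (l : List (Option (Fin 3))) :
    ∀ t, 0 ≤ t → ∀ x : T3, mixed l S.f t x =
      if some 0 ∈ l then 0 else
        (S.D (l.count none) (l.count (some 1)) (l.count (some 2))).f t x := by
  induction l with
  | nil => intro t _ x; simp [P113.mixed, SP.D_zero]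
  | cons o l ih =>
    intro t ht x
    rcases o with _ | i
    · have e1 : P113.mixed (none :: l) S.f t x =
          derivWithin (fun s => P113.mixed l S.f s x) (Ici 0) t := rfl
      rw [e1]
      rw [derivWithin_congr (fun s (hs : s ∈ Ici (0 : ℝ)) => ih s hs x) (ih t ht x)]
      have hmem : (some 0 ∈ (none :: l)) ↔ (some (0 : Fin 3) ∈ l) := by simp
      simp only [hmem]
      by_cases hbad : some 0 ∈ l
      · simp [hbad]
      · simp only [hbad, if_false]
        have h3 := ((S.time (l.count none) (l.count (some 1)) (l.count (some 2)) t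
          x).hasDerivWithinAt (s := Ici 0)).derivWithin (uniqueDiffOn_Ici 0 t ht)
        have c1 : (none :: l).count none = l.count none + 1 := by simp
        have c2 : (none :: l).count (some (1 : Fin 3)) = l.count (some 1) := by simp
        have c3 : (none :: l).count (some (2 : Fin 3)) = l.count (some 2) := by simp
        rw [c1, c2, c3]
        exact h3
    · have e1 : P113.mixed (some i :: l) S.f t x =
          deriv (fun s => P113.mixed l S.f t (move i s x)) 0 := rfl
      rw [e1]
      simp only [ih t ht]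
      by_cases hbad : some 0 ∈ l
      · have : some (0 : Fin 3) ∈ (some i :: l) := by simp [hbad]
        simp only [hbad, this, if_true]
        simp
      · simp only [hbad, if_false]
        fin_cases i
        · have : some (0 : Fin 3) ∈ (some (0 : Fin 3) :: l) := by simp
          simp only [Fin.zero_eta, this, if_true]
          exact (S.dir0 _ _ _ t x).deriv
        · have : ¬ some (0 : Fin 3) ∈ (some (1 : Fin 3) :: l) := by simp [hbad]
          simp only [Fin.mk_one, this, if_false]
          have c1 : (some (1 : Fin 3) :: l).count none = l.count none := by simp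
          have c2 : (some (1 : Fin 3) :: l).count (some 1) = l.count (some 1) + 1 := by simp
          have c3 : (some (1 : Fin 3) :: l).count (some 2) = l.count (some 2) := by simp
          rw [c1, c2, c3]
          exact (S.dir1 _ _ _ t x).deriv
        · have : ¬ some (0 : Fin 3) ∈ (some (2 : Fin 3) :: l) := by simp [hbad]
          simp only [Fin.reduceFinMk, this, if_false]
          have c1 : (some (2 : Fin 3) :: l).count none = l.count none := by simp
          have c2 : (some (2 : Fin 3) :: l).count (some 1) = l.count (some 1) := by simp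
          have c3 : (some (2 : Fin 3) :: l).count (some 2) = l.count (some 2) + 1 := by simp
          rw [c1, c2, c3]
          exact (S.dir2 _ _ _ t x).deriv

theorem SP.smooth {n : ℕ} (S : SP n) : SmoothS S.f := by
  unfold SmoothS
  apply ContDiff.contDiffOn
  have e : (fun z : ℝ × (Fin 3 → ℝ) => S.f z.1 (proj z.2)) =
      fun z => ∑ i, S.A i z.1 * S.g i (z.2 1) * S.c i (z.2 2) := by
    funext z
    simp only [SP.f, proj]
    refine Finset.sum_congr rfl fun i _ => ?_
    rw [cl_coe (S.pg i), cl_coe (S.pc i)]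
  rw [e]
  apply ContDiff.sum
  intro i _
  have h1 := S.hA i
  have h2 := S.hg i
  have h3 := S.hc i
  exact ((h1.comp contDiff_fst).mul (h2.comp ((contDiff_apply ℝ ℝ 1).comp contDiff_snd))).mul
    (h3.comp ((contDiff_apply ℝ ℝ 2).comp contDiff_snd))

theorem SP.cont {n : ℕ} (S : SP n) (T : ℝ) : ContS T S.f := by
  unfold ContS SP.f
  apply Continuous.continuousOn
  apply continuous_finsetSum
  intro i _
  have h1 := (S.hA i).continuous
  have h2 := continuous_cl (S.hg i).continuous (S.pg i)
  have h3 := continuous_cl (S.hc i).continuous (S.pc i)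
  fun_prop

end Vale.Agent.P113.L2
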