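import Mathlib
import Vale.Agent.P113.Speed
import Vale.Agent.P113.Compiler
import Vale.Agent.P113.L2.Flow

open scoped ContDiff Topology
open Set

namespace Vale.Agent.P113.L2

variable {α : Type} [Primcodable α]

theorem qv_eq_rv (s : QC) : qv s = rv s := by
  rw [rv_def]; rfl

theorem CompReal.of_compFam {f : α → ℝ} (hf : CompFam f) : CompReal f := by
  obtain ⟨F, hF, h⟩ := hf
  refine ⟨F, hF, fun a n => ?_⟩
  rw [abs_sub_comm, qv_eq_rv]
  exact h a n

theorem CompReal.compFam {f : α → ℝ} (hf : CompReal f) : CompFam f := by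
  obtain ⟨F, hF, h⟩ := hf
  refine ⟨F, hF, fun a n => ?_⟩
  rw [abs_sub_comm, ← qv_eq_rv]
  exact h a n

theorem speed_le_one (p : Desc × List ℕ) : speed p ≤ 1 := by
  have h1 : speed p ≤ ∑' n : ℕ, (1 / 2 : ℝ) ^ (n + 1) :=
    (speed_summable p).tsum_le_tsum (speed_term_le p) summable_geom
  have h2 : ∑' n : ℕ, (1 / 2 : ℝ) ^ (n + 1) = 1 := by
    have := tsum_geometric_of_lt_one (r := (1 / 2 : ℝ)) (by norm_num) (by norm_num)
    simp_rw [pow_succ]
    rw [tsum_mul_right, this]
    norm_num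
  linarith

noncomputable def theta (d : Desc) (k : ℕ) : ℝ :=
  speed (d, Denumerable.ofNat (List ℕ) k) * (1 / (k.factorial : ℝ))

theorem theta_nonneg (d : Desc) (k : ℕ) : 0 ≤ theta d k :=
  mul_nonneg (speed_nonneg _) (by positivity)

theorem theta_bound (d : Desc) (k : ℕ) : |theta d k| ≤ 1 / (k.factorial : ℝ) := by
  rw [abs_of_nonneg (theta_nonneg d k)]
  unfold theta
  have h1 := speed_le_one (d, Denumerable.ofNat (List ℕ) k)
  have h2 : (0 : ℝ) < 1 / (k.factorial : ℝ) := by positivity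
  nlinarith

theorem theta_pos_iff (d : Desc) (l : List ℕ) :
    0 < theta d (Encodable.encode l) ↔ ∃ n, haltsAt d l n = true := by
  have h := speed_pos_iff (d, l)
  unfold theta
  rw [Denumerable.ofNat_encode]
  have h2 : (0 : ℝ) < 1 / ((Encodable.encode l).factorial : ℝ) := by positivity
  rw [mul_pos_iff_of_pos_right h2]
  exact h

theorem compReal_theta : CompReal fun p : Desc × ℕ => theta p.1 p.2 := by
  unfold theta
  have h1 : CompReal fun p : Desc × ℕ => speed (p.1, Denumerable.ofNat (List ℕ) p.2) :=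
    (CompReal.of_compFam compFam_speed).comp
      (g := fun p : Desc × ℕ => (p.1, Denumerable.ofNat (List ℕ) p.2))
      (Computable.fst.pair ((Primrec.ofNat (List ℕ)).to_comp.comp Computable.snd))
  have h2 : RatComp fun p : Desc × ℕ => (1 : ℝ) / (p.2.factorial : ℝ) :=
    RatComp.one.div (RatComp.nat (pFactorial.to_comp.comp Computable.snd))
  exact h1.mul h2.compReal

noncomputable def GM (d : Desc) : ℝ → ℝ := per (Gs (theta d))

theorem effSmooth_GM : EffSmooth fun d : Desc => GM d :=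
  EffSmooth.per (effSmooth_Gs theta_bound compReal_theta)
    fun d n y hy => Gs_outside (theta_bound d) n hy

theorem GM_periodic (d : Desc) : Function.Periodic (GM d) 1 := per_periodic _

theorem GM_contDiff (d : Desc) : ContDiff ℝ ∞ (GM d) := effSmooth_GM.1 d

theorem GM_at (d : Desc) (k : ℕ) {ρ : ℝ} (h1 : 1 / 2 < ρ) (h2 : ρ < 1) :
    GM d ((1 / 2) ^ k * ρ) = theta d k * bump (2 * ρ - 1) := by
  have hk : (0 : ℝ) < (1 / 2) ^ k := by positivity
  have hk1 : (1 / 2 : ℝ) ^ k ≤ 1 := pow_le_one₀ (by norm_num) (by norm_num)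
  have hy0 : 0 < (1 / 2 : ℝ) ^ k * ρ := by positivity
  have hy1 : (1 / 2 : ℝ) ^ k * ρ < 1 := by nlinarith
  unfold GM per
  rw [Int.fract_eq_self.2 ⟨hy0.le, hy1⟩]
  unfold Gs
  rw [tsum_eq_single k]
  · congr 2
    rw [pow_succ]
    have : (2 : ℝ) ^ k * (1 / 2) ^ k = 1 := by
      rw [← mul_pow]; norm_num
    calc (2 : ℝ) ^ k * 2 * ((1 / 2) ^ k * ρ) - 1 = (2 ^ k * (1 / 2) ^ k) * (2 * ρ) - 1 := by ring
      _ = 2 * ρ - 1 := by rw [this]; ring
  · intro j hj
    rcases lt_or_gt_of_ne hj with hlt | hgt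
    · have e : (2 : ℝ) ^ (j + 1) * (1 / 2) ^ k ≤ 1 := by
        have h3 : (2 : ℝ) ^ (j + 1) ≤ 2 ^ k := pow_le_pow_right₀ (by norm_num) (by omega)
        calc (2 : ℝ) ^ (j + 1) * (1 / 2) ^ k ≤ 2 ^ k * (1 / 2) ^ k := by gcongr
          _ = 1 := by rw [← mul_pow]; norm_num
      rw [bump_of_le, mul_zero]
      nlinarith
    · have e : (4 : ℝ) ≤ (2 : ℝ) ^ (j + 1) * (1 / 2) ^ k := by
        have h3 : (2 : ℝ) ^ (k + 2) ≤ 2 ^ (j + 1) := pow_le_pow_right₀ (by norm_num) (by omega)
        calc (4 : ℝ) = 2 ^ (k + 2) * (1 / 2) ^ k := by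
              rw [pow_add, mul_right_comm, ← mul_pow]; norm_num
          _ ≤ 2 ^ (j + 1) * (1 / 2) ^ k := by gcongr
      rw [bump_of_ge, mul_zero]
      nlinarith

theorem GM_nonneg (d : Desc) (y : ℝ) : 0 ≤ GM d y := by
  unfold GM per Gs
  exact tsum_nonneg fun k => mul_nonneg (theta_nonneg d k) (bump_nonneg _)

noncomputable def cz (z : ℝ) : ℝ := per bump z - per bump (z + 1 / 2)

theorem effSmooth_perBump : EffSmooth fun _ : α => per bump :=
  EffSmooth.per effSmooth_bump fun _ n y hy => by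
    rcases hy with h | h
    · exact iteratedDeriv_bump_of_le h n
    · exact iteratedDeriv_bump_of_ge h n

theorem effSmooth_cz : EffSmooth fun _ : α => cz := by
  have h1 : EffSmooth fun (_ : α) (z : ℝ) => per bump (1 * z + ((1 / 2 : ℚ) : ℝ)) :=
    EffSmooth.affine effSmooth_perBump (c := fun _ => 1) (d := fun _ => ((1 / 2 : ℚ) : ℝ))
      RatComp.one (RatComp.ratConst (1 / 2))
  have h2 := (effSmooth_perBump (α := α)).add (h1.constMul (c := fun _ => -1)
    (RatComp.one.neg).compReal)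
  refine h2.of_eq fun a z => ?_
  unfold cz
  push_cast
  ring_nf

theorem cz_contDiff : ContDiff ℝ ∞ cz := (effSmooth_cz (α := Unit)).1 ()

theorem cz_periodic : Function.Periodic cz 1 := by
  intro z
  unfold cz
  have h1 := per_periodic bump z
  have h2 := per_periodic bump (z + 1 / 2)
  rw [h1, show z + 1 + 1 / 2 = z + 1 / 2 + 1 by ring, h2]

theorem cz_half (z : ℝ) : cz (z + 1 / 2) = - cz z := by
  unfold cz
  have h1 := per_periodic bump z
  rw [show z + 1 / 2 + 1 / 2 = z + 1 by ring, h1]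
  ring

noncomputable def kap : ℝ := cz (1 / 2)

theorem kap_pos : 0 < kap := by
  unfold kap cz per
  have h1 : Int.fract (1 / 2 : ℝ) = 1 / 2 := Int.fract_eq_self.2 ⟨by norm_num, by norm_num⟩
  have h2 : Int.fract (1 / 2 + 1 / 2 : ℝ) = 0 := by norm_num
  rw [h1, h2, bump_of_le le_rfl, sub_zero]
  exact bump_pos (by norm_num) (by norm_num)

noncomputable def cB : ℝ := HB bump 1

theorem cB_pos : 0 < cB := by
  unfold cB HB
  exact intervalIntegral.intervalIntegral_pos_of_pos_on
    (contDiff_bump.continuous.intervalIntegrable _ _)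
    (fun x hx => bump_pos hx.1 hx.2) one_pos

theorem HB_of_ge {t : ℝ} (ht : 1 ≤ t) : HB bump t = cB := by
  unfold cB HB
  rw [← intervalIntegral.integral_add_adjacent_intervals (a := 0) (b := 1) (c := t)
    (contDiff_bump.continuous.intervalIntegrable _ _)
    (contDiff_bump.continuous.intervalIntegrable _ _)]
  have : ∫ s in (1 : ℝ)..t, bump s = 0 := by
    rw [intervalIntegral.integral_congr (g := fun _ => (0 : ℝ))]
    · simp
    · intro s hs
      rw [Set.uIcc_of_le ht] at hs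
      exact bump_of_ge hs.1
  rw [this, add_zero]

theorem exists_r : ∃ r : ℚ, 1 / 2 < (r : ℝ) * (kap * cB) ∧ (r : ℝ) * (kap * cB) < 1 := by
  have h := mul_pos kap_pos cB_pos
  obtain ⟨r, hr1, hr2⟩ := exists_rat_btwn (show 1 / 2 / (kap * cB) < 1 / (kap * cB) by
    apply div_lt_div_of_pos_right _ h; norm_num)
  refine ⟨r, ?_, ?_⟩
  · rwa [div_lt_iff₀ h] at hr1
  · rwa [lt_div_iff₀ h] at hr2

noncomputable def rr : ℚ := exists_r.choose

theorem rr_spec : 1 / 2 < (rr : ℝ) * (kap * cB) ∧ (rr : ℝ) * (kap * cB) < 1 :=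
  exists_r.choose_spec

noncomputable def qw (l : List ℕ) : ℝ := (1 / 2) ^ (Encodable.encode l) * (rr : ℝ)

theorem ratComp_qw : RatComp fun l : List ℕ => qw l := by
  unfold qw
  have h1 : RatComp fun l : List ℕ => ((1 / 2 : ℚ) : ℝ) ^ (Encodable.encode l) :=
    (RatComp.ratConst (1 / 2)).pow Computable.encode
  exact (h1.mul (RatComp.ratConst rr)).of_eq fun l => by push_cast; ring

theorem GM_qw (d : Desc) (l : List ℕ) : GM d (qw l * (kap * cB)) =
    theta d (Encodable.encode l) * bump (2 * ((rr : ℝ) * (kap * cB)) - 1) := by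
  unfold qw
  rw [mul_assoc]
  exact GM_at d _ rr_spec.1 rr_spec.2

theorem GM_qw_pos_iff (d : Desc) (l : List ℕ) :
    0 < GM d (qw l * (kap * cB)) ↔ ∃ n, haltsAt d l n = true := by
  rw [GM_qw, ← theta_pos_iff]
  have h := rr_spec
  have : 0 < bump (2 * ((rr : ℝ) * (kap * cB)) - 1) := bump_pos (by linarith) (by linarith)
  exact mul_pos_iff_of_pos_right this

end Vale.Agent.P113.L2
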