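import Mathlib
import Vale.Agent.P113.L2.Data

open scoped ContDiff Topology
open Set

namespace Vale.Agent.P113.L2

variable {α : Type} [Primcodable α]

theorem CompReal.finSum {n : ℕ} {f : Fin n → α → ℝ} (h : ∀ i, CompReal (f i)) :
    CompReal fun a => ∑ i, f i a := by
  induction n with
  | zero => simpa using RatComp.zero.compReal
  | succ n ih =>
    refine ((h 0).add (ih fun i => h i.succ)).of_eq fun a => ?_
    rw [Fin.sum_univ_succ]

theorem cMem (d : Option (Fin 3)) : Computable fun l : List (Option (Fin 3)) =>
    decide (d ∈ l) := by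
  have h1 : Computable fun l : List (Option (Fin 3)) => decide (0 < l.count d) :=
    cLt (cConst 0) (primrec_count d).to_comp
  refine h1.of_eq fun l => ?_
  simp [List.count_pos_iff]

noncomputable def val {n : ℕ} (S : SP n) (l : List (Option (Fin 3))) (t : ℝ) (x : T3) : ℝ :=
  if some 0 ∈ l then 0 else (S.D (l.count none) (l.count (some 1)) (l.count (some 2))).f t x

theorem compReal_SP {n : ℕ} {S : α → SP n} (hA : ∀ i, EffSmooth fun a => (S a).A i)
    (hg : ∀ i, EffSmooth fun a => (S a).g i) (hc : ∀ i, EffSmooth fun a => (S a).c i) :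
    CompReal fun p : α × Query => val (S p.1) p.2.2.1 (rv p.2.2.2.1)
      (proj ![rv p.2.2.2.2.1, rv p.2.2.2.2.2.1, rv p.2.2.2.2.2.2]) := by
  unfold val
  have ca : Computable fun p : α × Query => p.1 := Computable.fst
  have cl' : Computable fun p : α × Query => p.2.2.1 :=
    Computable.fst.comp (Computable.snd.comp Computable.snd)
  have ct : Computable fun p : α × Query => p.2.2.2.1 :=
    Computable.fst.comp (Computable.snd.comp (Computable.snd.comp Computable.snd))
  have cx : Computable fun p : α × Query => p.2.2.2.2 :=
    Computable.snd.comp (Computable.snd.comp (Computable.snd.comp Computable.snd))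
  have cy : Computable fun p : α × Query => p.2.2.2.2.2.1 :=
    Computable.fst.comp (Computable.snd.comp cx)
  have cz' : Computable fun p : α × Query => p.2.2.2.2.2.2 :=
    Computable.snd.comp (Computable.snd.comp cx)
  refine CompReal.ite ((cMem (some 0)).comp cl') RatComp.zero.compReal ?_
  unfold SP.f SP.D
  simp only
  refine CompReal.finSum fun i => ?_
  refine CompReal.mul (CompReal.mul ?_ ?_) ?_
  · have := (hA i).2.comp (g := fun p : α × Query =>
      (p.1, (p.2.2.1.count none, p.2.2.2.1)))
      (ca.pair (((primrec_count none).to_comp.comp cl').pair ct))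
    exact this.of_eq fun p => by simp only [qv_eq_rv]
  · have := (hg i).2.comp (g := fun p : α × Query =>
      (p.1, (p.2.2.1.count (some 1), p.2.2.2.2.2.1)))
      (ca.pair (((primrec_count (some 1)).to_comp.comp cl').pair cy))
    refine this.of_eq fun p => ?_
    simp only [qv_eq_rv, proj]
    rw [show (![rv p.2.2.2.2.1, rv p.2.2.2.2.2.1, rv p.2.2.2.2.2.2] : Fin 3 → ℝ) 1 =
      rv p.2.2.2.2.2.1 from rfl, cl_coe (periodic_iteratedDeriv ((S p.1).pg i) _)]
  · have := (hc i).2.comp (g := fun p : α × Query =>
      (p.1, (p.2.2.1.count (some 2), p.2.2.2.2.2.2)))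
      (ca.pair (((primrec_count (some 2)).to_comp.comp cl').pair cz'))
    refine this.of_eq fun p => ?_
    simp only [qv_eq_rv, proj]
    rw [show (![rv p.2.2.2.2.1, rv p.2.2.2.2.2.1, rv p.2.2.2.2.2.2] : Fin 3 → ℝ) 2 =
      rv p.2.2.2.2.2.2 from rfl, cl_coe (periodic_iteratedDeriv ((S p.1).pc i) _)]

theorem one_contDiff : ContDiff ℝ ∞ (fun _ : ℝ => (1 : ℝ)) := contDiff_const

theorem one_periodic : Function.Periodic (fun _ : ℝ => (1 : ℝ)) 1 := fun _ => rfl

theorem effSmooth_one : EffSmooth fun (_ : α) (_ : ℝ) => (1 : ℝ) := by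
  refine ⟨fun _ => contDiff_const, ?_⟩
  have cn : Computable fun p : α × ℕ × QC => p.2.1 := Computable.fst.comp Computable.snd
  refine (CompReal.ite (c := fun p : α × ℕ × QC => p.2.1 = 0) (cEq cn (cConst 0))
    RatComp.one.compReal RatComp.zero.compReal).of_eq fun p => ?_
  rw [iteratedDeriv_const]

theorem shift_contDiff {f : ℝ → ℝ} (hf : ContDiff ℝ ∞ f) : ContDiff ℝ ∞ fun t => f (t - 1) :=
  hf.comp (contDiff_id.sub contDiff_const)

noncomputable def SF0 (ν : ℝ) (d : Desc) : SP 3 where
  A := ![fun t => bump (t - 1), fun t => -ν * HB bump (t - 1), fun t => -ν * HB bump (t - 1)]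
  g := ![GM d, iteratedDeriv 2 (GM d), GM d]
  c := ![cz, cz, iteratedDeriv 2 cz]
  hA := by
    intro i
    fin_cases i
    · exact shift_contDiff contDiff_bump
    · exact contDiff_const.mul (shift_contDiff (contDiff_HB contDiff_bump))
    · exact contDiff_const.mul (shift_contDiff (contDiff_HB contDiff_bump))
  hg := by
    intro i
    fin_cases i
    · exact GM_contDiff d
    · exact contDiff_iteratedDeriv (GM_contDiff d) 2
    · exact GM_contDiff d
  hc := by
    intro i
    fin_cases i
    · exact cz_contDiff
    · exact cz_contDiff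
    · exact contDiff_iteratedDeriv cz_contDiff 2
  pg := by
    intro i
    fin_cases i
    · exact GM_periodic d
    · exact periodic_iteratedDeriv (GM_periodic d) 2
    · exact GM_periodic d
  pc := by
    intro i
    fin_cases i
    · exact cz_periodic
    · exact cz_periodic
    · exact periodic_iteratedDeriv cz_periodic 2

noncomputable def SF1 (ν : ℝ) (l : List ℕ) : SP 2 where
  A := ![fun t => qw l * iteratedDeriv 1 bump t, fun t => -ν * (qw l * bump t)]
  g := ![fun _ => 1, fun _ => 1]
  c := ![cz, iteratedDeriv 2 cz]
  hA := by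
    intro i
    fin_cases i
    · exact contDiff_const.mul (contDiff_iteratedDeriv contDiff_bump 1)
    · exact contDiff_const.mul (contDiff_const.mul contDiff_bump)
  hg := by
    intro i
    fin_cases i <;> exact one_contDiff
  hc := by
    intro i
    fin_cases i
    · exact cz_contDiff
    · exact contDiff_iteratedDeriv cz_contDiff 2
  pg := by
    intro i
    fin_cases i <;> exact one_periodic
  pc := by
    intro i
    fin_cases i
    · exact cz_periodic
    · exact periodic_iteratedDeriv cz_periodic 2

noncomputable def SU0 (d : Desc) : SP 1 where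
  A := ![fun t => HB bump (t - 1)]
  g := ![GM d]
  c := ![cz]
  hA := by
    intro i
    fin_cases i
    exact shift_contDiff (contDiff_HB contDiff_bump)
  hg := by
    intro i
    fin_cases i
    exact GM_contDiff d
  hc := by
    intro i
    fin_cases i
    exact cz_contDiff
  pg := by
    intro i
    fin_cases i
    exact GM_periodic d
  pc := by
    intro i
    fin_cases i
    exact cz_periodic

noncomputable def SU1 (l : List ℕ) : SP 1 where
  A := ![fun t => qw l * bump t]
  g := ![fun _ => 1]
  c := ![cz]
  hA := by
    intro i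
    fin_cases i
    exact contDiff_const.mul contDiff_bump
  hg := by
    intro i
    fin_cases i
    exact one_contDiff
  hc := by
    intro i
    fin_cases i
    exact cz_contDiff
  pg := by
    intro i
    fin_cases i
    exact one_periodic
  pc := by
    intro i
    fin_cases i
    exact cz_periodic

noncomputable def force (ν : ℝ) (a : Desc × List ℕ) : VField := fun t x k =>
  if k = 0 then (SF0 ν a.1).f t x else if k = 1 then (SF1 ν a.2).f t x else 0

noncomputable def vel (a : Desc × List ℕ) : VField := fun t x k =>
  if k = 0 then (SU0 a.1).f t x else if k = 1 then (SU1 a.2).f t x else 0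

theorem effSmooth_shift {F : α → ℝ → ℝ} (hF : EffSmooth F) : EffSmooth fun a t => F a (t - 1) := by
  have h : EffSmooth fun (a : α) (t : ℝ) => F a (1 * t + -1) :=
    EffSmooth.affine hF (c := fun _ => 1) (d := fun _ => -1) RatComp.one RatComp.one.neg
  exact h.of_eq fun a t => by congr 1; ring

theorem mixed_zero (l : List (Option (Fin 3))) : ∀ t, 0 ≤ t → ∀ x : T3,
    mixed l (fun _ _ => (0 : ℝ)) t x = 0 := by
  induction l with
  | nil => intro t _ x; rfl
  | cons o l ih =>
    intro t ht x
    rcases o with _ | i
    · have e1 : P113.mixed (none :: l) (fun _ _ => (0 : ℝ)) t x =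
          derivWithin (fun s => P113.mixed l (fun _ _ => (0 : ℝ)) s x) (Ici 0) t := rfl
      rw [e1, derivWithin_congr (fun s (hs : s ∈ Ici (0 : ℝ)) => ih s hs x) (ih t ht x)]
      simp
    · have e1 : P113.mixed (some i :: l) (fun _ _ => (0 : ℝ)) t x =
          deriv (fun s => P113.mixed l (fun _ _ => (0 : ℝ)) t (move i s x)) 0 := rfl
      rw [e1]
      simp only [ih t ht]
      simp

theorem exists_compiler2 {ν : ℝ} (hν : ComputableReal ν) :
    ∃ comp : Desc × List ℕ → Nat.Partrec.Code, Computable comp ∧
      ∀ a, Computes (comp a) (force ν a) := by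
  have hν' : CompReal fun _ : Desc × List ℕ => ν := by
    obtain ⟨s, hs, h⟩ := hν
    refine ⟨fun p => s p.2, hs.comp Computable.snd, fun a n => ?_⟩
    rw [abs_sub_comm, qv_eq_rv]
    exact h n
  have hq : CompReal fun a : Desc × List ℕ => qw a.2 := (ratComp_qw.comp Computable.snd).compReal
  have e0 : CompReal fun p : (Desc × List ℕ) × Query => val (SF0 ν p.1.1) p.2.2.1
      (rv p.2.2.2.1) (proj ![rv p.2.2.2.2.1, rv p.2.2.2.2.2.1, rv p.2.2.2.2.2.2]) := by
    refine compReal_SP (S := fun a : Desc × List ℕ => SF0 ν a.1) ?_ ?_ ?_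
    · intro i
      have hH := (effSmooth_shift (effSmooth_H (α := Desc × List ℕ))).constMul hν'.neg
      fin_cases i
      · exact effSmooth_shift effSmooth_bump
      · exact hH
      · exact hH
    · intro i
      have hG : EffSmooth fun a : Desc × List ℕ => GM a.1 := effSmooth_GM.comp Computable.fst
      fin_cases i
      · exact hG
      · exact hG.deriv 2
      · exact hG
    · intro i
      fin_cases i
      · exact effSmooth_cz
      · exact effSmooth_cz
      · exact effSmooth_cz.deriv 2
  have e1 : CompReal fun p : (Desc × List ℕ) × Query => val (SF1 ν p.1.2) p.2.2.1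
      (rv p.2.2.2.1) (proj ![rv p.2.2.2.2.1, rv p.2.2.2.2.2.1, rv p.2.2.2.2.2.2]) := by
    refine compReal_SP (S := fun a : Desc × List ℕ => SF1 ν a.2) ?_ ?_ ?_
    · intro i
      fin_cases i
      · exact (effSmooth_bump.deriv 1).constMul hq
      · exact (effSmooth_bump.constMul hq).constMul hν'.neg
    · intro i
      fin_cases i <;> exact effSmooth_one
    · intro i
      fin_cases i
      · exact effSmooth_cz
      · exact effSmooth_cz.deriv 2
  have ck : Computable fun p : (Desc × List ℕ) × Query => p.2.1 :=
    Computable.fst.comp Computable.snd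
  have hr := (CompReal.ite (c := fun p : (Desc × List ℕ) × Query => p.2.1 = 0)
    (cEq ck (Computable.const 0)) e0
    (CompReal.ite (c := fun p : (Desc × List ℕ) × Query => p.2.1 = 1)
      (cEq ck (Computable.const 1)) e1 RatComp.zero.compReal)).compFam
  refine exists_compiler hr fun a q hq => ?_
  unfold ask
  simp only
  by_cases h0 : q.1 = 0
  · have : (fun t x => force ν a t x q.1) = (SF0 ν a.1).f := by
      funext t x; simp [force, h0]
    rw [this, (SF0 ν a.1).mixed q.2.1 _ hq]
    simp only [h0, if_true]
    rfl
  · by_cases h1 : q.1 = 1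
    · have : (fun t x => force ν a t x q.1) = (SF1 ν a.2).f := by
        funext t x; simp [force, h1]
      rw [this, (SF1 ν a.2).mixed q.2.1 _ hq]
      simp only [h0, h1, if_true, if_false]
      rfl
    · have : (fun t x => force ν a t x q.1) = fun _ _ => 0 := by
        funext t x; simp [force, h0, h1]
      rw [this, mixed_zero q.2.1 _ hq]
      simp only [h0, h1, if_false]

end Vale.Agent.P113.L2
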