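import Mathlib
import Vale.Agent.P113.Level1
import Vale.Agent.P113.L2.Eff

open scoped ContDiff Topology
open Set MeasureTheory

namespace Vale.Agent.P113.L2

noncomputable def velD (a : Desc × List ℕ) (i j k : ℕ) : VField := fun t x m =>
  if m = 0 then ((SU0 a.1).D i j k).f t x else if m = 1 then ((SU1 a.2).D i j k).f t x else 0

theorem velD_zero (a : Desc × List ℕ) : velD a 0 0 0 = vel a := by
  funext t x m
  simp [velD, vel, SP.D_zero]

theorem velD_time (a : Desc × List ℕ) (i j k : ℕ) (t : ℝ) (x : T3) :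
    HasDerivAt (fun s => velD a i j k s x) (velD a (i + 1) j k t x) t := by
  rw [hasDerivAt_pi]
  intro m
  unfold velD
  by_cases h0 : m = 0
  · simp only [h0, if_true]
    exact (SU0 a.1).time i j k t x
  · by_cases h1 : m = 1
    · simp only [h1, if_true, if_neg (show ¬ ((1 : Fin 3) = 0) by decide)]
      exact (SU1 a.2).time i j k t x
    · simp only [h0, h1, if_false]
      exact hasDerivAt_const _ _

theorem velD_dir0 (a : Desc × List ℕ) (i j k : ℕ) (t : ℝ) (x : T3) :
    HasDerivAt (fun s => velD a i j k t (move 0 s x)) 0 0 := by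
  rw [hasDerivAt_pi]
  intro m
  unfold velD
  by_cases h0 : m = 0
  · simp only [h0, if_true]
    exact (SU0 a.1).dir0 i j k t x
  · by_cases h1 : m = 1
    · simp only [h1, if_true, if_neg (show ¬ ((1 : Fin 3) = 0) by decide)]
      exact (SU1 a.2).dir0 i j k t x
    · simp only [h0, h1, if_false]
      exact hasDerivAt_const _ _

theorem velD_dir1 (a : Desc × List ℕ) (i j k : ℕ) (t : ℝ) (x : T3) :
    HasDerivAt (fun s => velD a i j k t (move 1 s x)) (velD a i (j + 1) k t x) 0 := by
  rw [hasDerivAt_pi]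
  intro m
  unfold velD
  by_cases h0 : m = 0
  · simp only [h0, if_true]
    exact (SU0 a.1).dir1 i j k t x
  · by_cases h1 : m = 1
    · simp only [h1, if_true, if_neg (show ¬ ((1 : Fin 3) = 0) by decide)]
      exact (SU1 a.2).dir1 i j k t x
    · simp only [h0, h1, if_false]
      exact hasDerivAt_const _ _

theorem velD_dir2 (a : Desc × List ℕ) (i j k : ℕ) (t : ℝ) (x : T3) :
    HasDerivAt (fun s => velD a i j k t (move 2 s x)) (velD a i j (k + 1) t x) 0 := by
  rw [hasDerivAt_pi]
  intro m
  unfold velD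
  by_cases h0 : m = 0
  · simp only [h0, if_true]
    exact (SU0 a.1).dir2 i j k t x
  · by_cases h1 : m = 1
    · simp only [h1, if_true, if_neg (show ¬ ((1 : Fin 3) = 0) by decide)]
      exact (SU1 a.2).dir2 i j k t x
    · simp only [h0, h1, if_false]
      exact hasDerivAt_const _ _

theorem velD_cont (a : Desc × List ℕ) (i j k : ℕ) (T : ℝ) (m : Fin 3) :
    ContS T (fun t x => velD a i j k t x m) := by
  unfold velD
  by_cases h0 : m = 0
  · simp only [h0, if_true]
    exact ((SU0 a.1).D i j k).cont T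
  · by_cases h1 : m = 1
    · simp only [h1, if_true, if_neg (show ¬ ((1 : Fin 3) = 0) by decide)]
      exact ((SU1 a.2).D i j k).cont T
    · simp only [h0, h1, if_false]
      exact continuousOn_const

theorem smoothV_vel (a : Desc × List ℕ) : SmoothV (vel a) := by
  intro m
  unfold vel
  by_cases h0 : m = 0
  · simp only [h0, if_true]
    exact (SU0 a.1).smooth
  · by_cases h1 : m = 1
    · simp only [h1, if_true, if_neg (show ¬ ((1 : Fin 3) = 0) by decide)]
      exact (SU1 a.2).smooth
    · simp only [h0, h1, if_false]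
      exact contDiffOn_const

theorem smoothV_force (ν : ℝ) (a : Desc × List ℕ) : SmoothV (force ν a) := by
  intro m
  unfold force
  by_cases h0 : m = 0
  · simp only [h0, if_true]
    exact (SF0 ν a.1).smooth
  · by_cases h1 : m = 1
    · simp only [h1, if_true, if_neg (show ¬ ((1 : Fin 3) = 0) by decide)]
      exact (SF1 ν a.2).smooth
    · simp only [h0, h1, if_false]
      exact contDiffOn_const

theorem bump_mul_HB (t : ℝ) : bump t * HB bump (t - 1) = 0 := by
  rcases le_total t 1 with h | h
  · rw [HB_of_le (fun s hs => bump_of_le hs) (by linarith), mul_zero]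
  · rw [bump_of_ge h, zero_mul]

theorem deriv_HBshift (t : ℝ) : iteratedDeriv 1 (fun t => HB bump (t - 1)) t = bump (t - 1) := by
  rw [iteratedDeriv_one]
  have h := (hasDerivAt_HB contDiff_bump.continuous (t - 1)).comp_sub_const t 1
  exact h.deriv

noncomputable def uxF (a : Desc × List ℕ) : Fin 3 → VField :=
  ![fun _ _ => 0, velD a 0 1 0, velD a 0 0 1]

noncomputable def uxxF (a : Desc × List ℕ) : Fin 3 → Fin 3 → VField :=
  ![![fun _ _ => 0, fun _ _ => 0, fun _ _ => 0],
    ![fun _ _ => 0, velD a 0 2 0, velD a 0 1 1],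
    ![fun _ _ => 0, velD a 0 1 1, velD a 0 0 2]]

theorem classical2 (ν : ℝ) (a : Desc × List ℕ) (T : ℝ) :
    IsClassicalSolution ν (force ν a) T (vel a) (fun _ _ => 0) := by
  have hz : ∀ t : ℝ, iteratedDeriv 1 (fun _ : ℝ => (1 : ℝ)) t = 0 := fun t => by
    rw [iteratedDeriv_const]; simp
  have hz2 : ∀ t : ℝ, iteratedDeriv 2 (fun _ : ℝ => (1 : ℝ)) t = 0 := fun t => by
    rw [iteratedDeriv_const]; simp
  have hcz : cl (iteratedDeriv 1 fun _ : ℝ => (1 : ℝ)) = fun _ => 0 := by
    funext y; exact hz _
  have hcz2 : cl (iteratedDeriv 2 fun _ : ℝ => (1 : ℝ)) = fun _ => 0 := by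
    funext y; exact hz2 _
  have hc1 : cl (fun _ : ℝ => (1 : ℝ)) = fun _ => 1 := rfl
  refine ⟨velD a 1 0 0, uxF a, uxxF a, fun _ _ _ => 0, ?_, ?_, ?_, ?_, ?_, ?_, ?_, ?_, ?_, ?_, ?_⟩
  · intro k
    rw [← velD_zero]
    exact velD_cont a 0 0 0 T k
  · exact velD_cont a 1 0 0 T
  · intro i k
    fin_cases i
    · exact continuousOn_const
    · exact velD_cont a 0 1 0 T k
    · exact velD_cont a 0 0 1 T k
  · intro i j k
    fin_cases i <;> fin_cases j
    · exact continuousOn_const
    · exact continuousOn_const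
    · exact continuousOn_const
    · exact continuousOn_const
    · exact velD_cont a 0 2 0 T k
    · exact velD_cont a 0 1 1 T k
    · exact continuousOn_const
    · exact velD_cont a 0 1 1 T k
    · exact velD_cont a 0 0 2 T k
  · exact continuousOn_const
  · intro i; exact continuousOn_const
  · intro t _ x
    refine ⟨?_, fun i => ?_, fun i j => ?_, fun i => ?_⟩
    · rw [← velD_zero]
      exact (velD_time a 0 0 0 t x).hasDerivWithinAt
    · rw [← velD_zero]
      fin_cases i
      · exact velD_dir0 a 0 0 0 t x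
      · exact velD_dir1 a 0 0 0 t x
      · exact velD_dir2 a 0 0 0 t x
    · fin_cases i <;> fin_cases j
      · exact hasDerivAt_const _ _
      · exact hasDerivAt_const _ _
      · exact hasDerivAt_const _ _
      · exact velD_dir0 a 0 1 0 t x
      · exact velD_dir1 a 0 1 0 t x
      · exact velD_dir2 a 0 1 0 t x
      · exact velD_dir0 a 0 0 1 t x
      · exact velD_dir1 a 0 0 1 t x
      · exact velD_dir2 a 0 0 1 t x
    · exact hasDerivAt_const _ _
  · intro t _ x k
    have hb := bump_mul_HB t
    have hd := deriv_HBshift t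
    rw [Fin.sum_univ_three, Fin.sum_univ_three]
    have e0 : uxF a 0 = fun _ _ => 0 := rfl
    have e1 : uxF a 1 = velD a 0 1 0 := rfl
    have e2 : uxF a 2 = velD a 0 0 1 := rfl
    have e3 : uxxF a 0 0 = fun _ _ => 0 := rfl
    have e4 : uxxF a 1 1 = velD a 0 2 0 := rfl
    have e5 : uxxF a 2 2 = velD a 0 0 2 := rfl
    rw [e0, e1, e2, e3, e4, e5]
    fin_cases k
    · simp only [Fin.zero_eta, vel, velD, force, SP.f, SP.D, SU0, SU1, SF0, SF1,
        Finset.univ_unique, Fin.default_eq_zero, Finset.sum_singleton, Fin.sum_univ_three,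
        Matrix.cons_val_zero, Matrix.cons_val_one, Matrix.cons_val_two, Matrix.head_cons,
        Matrix.tail_cons, if_true, Matrix.cons_val_fin_one, Pi.zero_apply,
        show ¬ ((1 : Fin 3) = 0) by decide, show ¬ ((2 : Fin 3) = 0) by decide,
        show ¬ ((2 : Fin 3) = 1) by decide, if_false, iteratedDeriv_zero, hd, hc1]
      linear_combination (qw a.2 * cl cz (x 2) * cl (iteratedDeriv 1 (GM a.1)) (x 1) *
        cl cz (x 2)) * hb
    · simp only [Fin.mk_one, vel, velD, force, SP.f, SP.D, SU0, SU1, SF0, SF1,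
        Finset.univ_unique, Fin.default_eq_zero, Finset.sum_singleton, Fin.sum_univ_two,
        Matrix.cons_val_zero, Matrix.cons_val_one, Matrix.head_cons,
        Matrix.cons_val_fin_one, if_true, hcz, hcz2,
        show ¬ ((1 : Fin 3) = 0) by decide, show ¬ ((2 : Fin 3) = 0) by decide,
        show ¬ ((2 : Fin 3) = 1) by decide, if_false, iteratedDeriv_zero, hc1,
        iteratedDeriv_const_mul_field, Pi.zero_apply]
      ring
    · simp [vel, velD, force]
  · intro t _ x
    rw [Fin.sum_univ_three]
    have e0 : uxF a 0 = fun _ _ => 0 := rfl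
    have e1 : uxF a 1 = velD a 0 1 0 := rfl
    have e2 : uxF a 2 = velD a 0 0 1 := rfl
    rw [e0, e1, e2]
    simp only [velD, SP.f, SP.D, SU1, hcz, Pi.zero_apply, if_true,
      show ¬ ((1 : Fin 3) = 0) by decide, show ¬ ((2 : Fin 3) = 0) by decide,
      show ¬ ((2 : Fin 3) = 1) by decide, if_false, Finset.univ_unique, Fin.default_eq_zero,
      Finset.sum_singleton, Matrix.cons_val_fin_one]
    ring
  · intro x
    funext k
    have h1 : HB bump (0 - 1) = 0 := HB_of_le (fun s hs => bump_of_le hs) (by norm_num)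
    have h2 : bump 0 = 0 := bump_of_le le_rfl
    have h3 : HB bump (-1) = 0 := by simpa using h1
    by_cases h0 : k = 0
    · simp [vel, h0, SP.f, SU0, h3]
    · by_cases h1 : k = 1
      · simp [vel, h1, SP.f, SU1, h2]
      · simp [vel, h0, h1]
  · intro t _
    simp

end Vale.Agent.P113.L2
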