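import Mathlib
import Vale.Agent.P113.L2.Sol

open scoped ContDiff Topology
open Set MeasureTheory

namespace Vale.Agent.P113.L2

theorem const_of_deriv {Y Z v : ℝ → ℝ} (hY : ∀ t, 0 ≤ t → HasDerivWithinAt Y (v t) (Ici 0) t)
    (hZ : ∀ t, 0 ≤ t → HasDerivWithinAt Z (v t) (Ici 0) t) (t : ℝ) (ht : 0 ≤ t) :
    Y t = Z t + (Y 0 - Z 0) := by
  have h1 : ∀ s ∈ Ici (0 : ℝ), HasDerivWithinAt (fun s => Y s - Z s) 0 (Ici 0) s := by
    intro s hs
    have h2 := (hY s hs).fun_sub (hZ s hs)
    rwa [sub_self] at h2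
  have h2 : Y t - Z t = Y 0 - Z 0 := by
    have hfd : ∀ s ∈ Ici (0 : ℝ), fderivWithin ℝ (fun s => Y s - Z s) (Ici 0) s = 0 := by
      intro s hs
      have h3 := (h1 s hs).hasFDerivWithinAt
      rw [h3.fderivWithin (uniqueDiffOn_Ici 0 s hs)]
      ext; simp
    exact (convex_Ici (0 : ℝ)).is_const_of_fderivWithin_eq_zero (𝕜 := ℝ)
      (fun s hs => (h1 s hs).differentiableWithinAt) hfd ht (mem_Ici.2 le_rfl)
  linarith

noncomputable def KK (t : ℝ) : ℝ := ∫ s in (0 : ℝ)..t, HB bump (s - 1)

theorem continuous_HBs : Continuous fun s : ℝ => HB bump (s - 1) :=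
  (shift_contDiff (contDiff_HB contDiff_bump)).continuous

theorem hasDerivAt_KK (t : ℝ) : HasDerivAt KK (HB bump (t - 1)) t :=
  continuous_HBs.integral_hasStrictDerivAt 0 t |>.hasDerivAt

theorem KK_zero : KK 0 = 0 := by simp [KK]

theorem continuous_KK : Continuous KK :=
  continuous_iff_continuousAt.2 fun t => (hasDerivAt_KK t).continuousAt

theorem HB_nonneg (t : ℝ) : 0 ≤ HB bump t := by
  rcases le_total t 0 with h | h
  · rw [HB_of_le (fun s hs => bump_of_le hs) h]
  · exact intervalIntegral.integral_nonneg h fun s _ => bump_nonneg s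

theorem KK_ge (t : ℝ) (ht : 2 ≤ t) : cB * (t - 2) ≤ KK t := by
  have h0 : 0 ≤ KK 2 := intervalIntegral.integral_nonneg (by norm_num) fun s _ => HB_nonneg _
  have h1 : KK t = KK 2 + ∫ s in (2 : ℝ)..t, HB bump (s - 1) := by
    unfold KK
    rw [intervalIntegral.integral_add_adjacent_intervals]
    · exact continuous_HBs.intervalIntegrable _ _
    · exact continuous_HBs.intervalIntegrable _ _
  have h2 : ∫ s in (2 : ℝ)..t, HB bump (s - 1) = cB * (t - 2) := by
    rw [intervalIntegral.integral_congr (g := fun _ => cB)]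
    · simp; ring
    · intro s hs
      rw [Set.uIcc_of_le ht] at hs
      exact HB_of_ge (by linarith [hs.1])
  linarith

noncomputable def start : T3 := proj ![0, 0, 1 / 2]

noncomputable def yw (l : List ℕ) : ℝ := qw l * (kap * cB)

noncomputable def path2 (a : Desc × List ℕ) (t : ℝ) : Fin 3 → ℝ :=
  ![kap * GM a.1 (yw a.2) * KK t, kap * qw a.2 * HB bump t, 1 / 2]

theorem cl_cz_half : cl cz ((1 / 2 : ℝ) : UnitAddCircle) = kap := by
  rw [cl_coe cz_periodic]; rfl

theorem key_speed (a : Desc × List ℕ) (t : ℝ) :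
    HB bump (t - 1) * GM a.1 (kap * qw a.2 * HB bump t) = HB bump (t - 1) * GM a.1 (yw a.2) := by
  rcases le_total t 1 with h | h
  · rw [HB_of_le (fun s hs => bump_of_le hs) (by linarith)]; ring
  · rw [HB_of_ge h]
    congr 2
    unfold yw
    ring

theorem path2_deriv (a : Desc × List ℕ) (t : ℝ) :
    HasDerivAt (path2 a) (vel a t (proj (path2 a t))) t := by
  rw [hasDerivAt_pi]
  intro k
  fin_cases k
  · have h := (hasDerivAt_KK t).const_mul (kap * GM a.1 (yw a.2))
    have e : kap * GM a.1 (yw a.2) * HB bump (t - 1) =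
        vel a t (proj (path2 a t)) ((fun i => i) ⟨0, by decide⟩) := by
      simp only [vel, Fin.zero_eta, if_true, SP.f, SU0, Finset.univ_unique,
        Fin.default_eq_zero, Finset.sum_singleton, Matrix.cons_val_fin_one, proj, path2]
      rw [show (![kap * GM a.1 (yw a.2) * KK t, kap * qw a.2 * HB bump t, 1 / 2] :
        Fin 3 → ℝ) 1 = kap * qw a.2 * HB bump t from rfl,
        show (![kap * GM a.1 (yw a.2) * KK t, kap * qw a.2 * HB bump t, 1 / 2] :
        Fin 3 → ℝ) 2 = 1 / 2 from rfl, cl_cz_half, cl_coe (GM_periodic _), key_speed]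
      ring
    rw [← e]
    exact h
  · have h := (hasDerivAt_HB contDiff_bump.continuous t).const_mul (kap * qw a.2)
    have e : kap * qw a.2 * bump t =
        vel a t (proj (path2 a t)) ((fun i => i) ⟨1, by decide⟩) := by
      simp only [vel, Fin.mk_one, if_true, show ¬ ((1 : Fin 3) = 0) by decide, if_false, SP.f,
        SU1, Finset.univ_unique,
        Fin.default_eq_zero, Finset.sum_singleton, Matrix.cons_val_fin_one, proj, path2]
      rw [show (![kap * GM a.1 (yw a.2) * KK t, kap * qw a.2 * HB bump t, 1 / 2] :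
        Fin 3 → ℝ) 2 = 1 / 2 from rfl, cl_cz_half]
      have : cl (fun _ => (1 : ℝ)) = fun _ => 1 := rfl
      rw [this]
      ring
    rw [← e]
    exact h
  · have e : (0 : ℝ) = vel a t (proj (path2 a t)) ((fun i => i) ⟨2, by decide⟩) := by
      simp [vel]
    rw [← e]
    exact hasDerivAt_const _ _

theorem path2_zero (a : Desc × List ℕ) : proj (path2 a 0) = start := by
  unfold path2 start
  rw [KK_zero]
  have : HB bump 0 = 0 := by simp [HB]
  rw [this]
  simp

theorem trajectory2 (a : Desc × List ℕ) :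
    IsTrajectory (vel a) start (fun t => proj (path2 a t)) :=
  ⟨path2_zero a, path2 a, fun t _ => ⟨rfl, (path2_deriv a t).hasDerivWithinAt⟩⟩

theorem trajectory2_unique (a : Desc × List ℕ) {X : ℝ → T3} (hX : IsTrajectory (vel a) start X)
    (t : ℝ) (ht : 0 ≤ t) : X t = proj (path2 a t) := by
  obtain ⟨h0, Y, hY⟩ := hX
  have hYd : ∀ k t, 0 ≤ t → HasDerivWithinAt (fun s => Y s k) (vel a t (X t) k) (Ici 0) t :=
    fun k t ht => (hasDerivWithinAt_pi.1 (hY t ht).2) k
  have hPd : ∀ k t, HasDerivAt (fun s => path2 a s k) (vel a t (proj (path2 a t)) k) t :=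
    fun k t => (hasDerivAt_pi.1 (path2_deriv a t)) k
  have hX0 : ∀ k, ((Y 0 k : ℝ) : UnitAddCircle) = ((path2 a 0 k : ℝ) : UnitAddCircle) := by
    intro k
    have h1 := (hY 0 le_rfl).1
    rw [h0, ← path2_zero a] at h1
    exact (congrFun h1 k).symm
  have hXk : ∀ k t, 0 ≤ t → X t k = ((Y t k : ℝ) : UnitAddCircle) := by
    intro k t ht
    rw [(hY t ht).1]; rfl
  -- transfer from derivative equality to equality on the circle
  have transfer : ∀ k, (∀ t, 0 ≤ t → vel a t (X t) k = vel a t (proj (path2 a t)) k) →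
      ∀ t, 0 ≤ t → X t k = proj (path2 a t) k := by
    intro k hk t ht
    have h1 := const_of_deriv (Y := fun s => Y s k) (Z := fun s => path2 a s k)
      (v := fun t => vel a t (proj (path2 a t)) k)
      (fun t ht => by rw [← hk t ht]; exact hYd k t ht)
      (fun t _ => (hPd k t).hasDerivWithinAt) t ht
    rw [hXk k t ht, h1]
    have h2 := hX0 k
    simp only [AddCircle.coe_add, AddCircle.coe_sub, h2, sub_self, add_zero, proj]
  have c2 : ∀ t, 0 ≤ t → X t 2 = proj (path2 a t) 2 := by
    apply transfer 2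
    intro t _
    simp [vel]
  have c1 : ∀ t, 0 ≤ t → X t 1 = proj (path2 a t) 1 := by
    apply transfer 1
    intro t ht
    have hc1 : cl (fun _ => (1 : ℝ)) = fun _ => 1 := rfl
    simp only [vel, show ¬ ((1 : Fin 3) = 0) by decide, if_false, if_true, SP.f, SU1,
      Finset.univ_unique, Fin.default_eq_zero, Finset.sum_singleton, Matrix.cons_val_fin_one,
      c2 t ht, hc1]
  have c0 : ∀ t, 0 ≤ t → X t 0 = proj (path2 a t) 0 := by
    apply transfer 0
    intro t ht
    simp only [vel, if_true, SP.f, SU0,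
      Finset.univ_unique, Fin.default_eq_zero, Finset.sum_singleton, Matrix.cons_val_fin_one,
      c2 t ht, c1 t ht]
  funext k
  fin_cases k
  · exact c0 t ht
  · exact c1 t ht
  · exact c2 t ht

theorem hits2_iff (a : Desc × List ℕ) :
    (∃ t, 0 ≤ t ∧ proj (path2 a t) ∈ target) ↔ ∃ n, haltsAt a.1 a.2 n = true := by
  rw [← GM_qw_pos_iff a.1 a.2]
  have hk := kap_pos
  constructor
  · rintro ⟨t, ht, hx⟩
    by_contra hcon
    have h0 : GM a.1 (yw a.2) = 0 := le_antisymm (not_lt.1 hcon) (GM_nonneg _ _)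
    have h1 : proj (path2 a t) 0 = 0 := by
      simp [proj, path2, h0]
    simp only [target, mem_ofPred_eq] at hx
    rw [h1, norm_zero] at hx
    linarith
  · intro hpos
    have hA := cB_pos
    set v : ℝ := kap * GM a.1 (yw a.2) with hv
    have hvpos : 0 < v := mul_pos hk hpos
    set t₁ : ℝ := 2 + 1 / (v * cB) with ht₁
    have h1 : 2 ≤ t₁ := by
      rw [ht₁]; have : 0 < 1 / (v * cB) := by positivity
      linarith
    have h2 : 1 ≤ v * KK t₁ := by
      have h3 := KK_ge t₁ h1
      have h4 : v * (cB * (t₁ - 2)) = 1 := by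
        rw [ht₁]; field_simp; ring
      calc (1 : ℝ) = v * (cB * (t₁ - 2)) := h4.symm
        _ ≤ v * KK t₁ := mul_le_mul_of_nonneg_left h3 hvpos.le
    have h3 : (1 / 2 : ℝ) ∈ (fun t => v * KK t) '' Icc 0 t₁ := by
      refine intermediate_value_Icc (by linarith)
        ((continuous_const.mul continuous_KK).continuousOn) ?_
      change (1 / 2 : ℝ) ∈ Icc (v * KK 0) (v * KK t₁)
      rw [KK_zero, mul_zero]
      constructor <;> linarith
    obtain ⟨t, ht, hteq⟩ := h3
    refine ⟨t, ht.1, ?_⟩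
    simp only at hteq
    have h5 : proj (path2 a t) 0 = ((1 / 2 : ℝ) : UnitAddCircle) := by
      simp only [proj, path2]
      rw [show (![kap * GM a.1 (yw a.2) * KK t, kap * qw a.2 * HB bump t, 1 / 2] :
        Fin 3 → ℝ) 0 = v * KK t from rfl, hteq]
    simp only [target, mem_ofPred_eq]
    rw [h5, UnitAddCircle.norm_eq]
    norm_num

end Vale.Agent.P113.L2
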