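import Mathlib
import Vale.Agent.P113.L2.Traj

open scoped ContDiff Topology
open Set MeasureTheory

namespace Vale.Agent.P113.L2

theorem cl_anti {c : ℝ → ℝ} (hp : Function.Periodic c 1) (h : ∀ z, c (z + 1 / 2) = - c z)
    (y : UnitAddCircle) : cl c (y + ((1 / 2 : ℝ) : UnitAddCircle)) = - cl c y := by
  obtain ⟨r, rfl⟩ := exists_rep y
  rw [← AddCircle.coe_add, cl_coe hp, cl_coe hp, h]

theorem cz2_half (z : ℝ) : iteratedDeriv 2 cz (z + 1 / 2) = - iteratedDeriv 2 cz z := by
  have h1 : (fun z => cz (z + 1 / 2)) = fun z => - cz z := funext cz_half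
  have h2 := iteratedDeriv_comp_add_const 2 cz (1 / 2)
  have h3 : iteratedDeriv 2 (fun z => cz (z + 1 / 2)) z = iteratedDeriv 2 cz (z + 1 / 2) := by
    rw [h2]
  rw [← h3, h1, iteratedDeriv_fun_neg]

theorem integral_zero_of_anti {g : T3 → ℝ} (h : ∀ x, g (move 2 (1 / 2) x) = - g x) :
    ∫ x, g x = 0 := by
  have h1 := integral_move 2 (1 / 2) g
  simp only [h] at h1
  rw [integral_neg] at h1
  linarith

theorem SP.anti {n : ℕ} (S : SP n) (h : ∀ i z, S.c i (z + 1 / 2) = - S.c i z) (t : ℝ) (x : T3) :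
    S.f t (move 2 (1 / 2) x) = - S.f t x := by
  unfold SP.f
  rw [← Finset.sum_neg_distrib]
  refine Finset.sum_congr rfl fun i _ => ?_
  rw [move_apply, move_apply]
  simp only [if_true, show ¬ ((2 : Fin 3) = 1) by decide, if_false]
  rw [cl_anti (S.pc i) (h i)]
  ring

theorem mean_zero_force (ν : ℝ) (a : Desc × List ℕ) (t : ℝ) (k : Fin 3) :
    ∫ x, force ν a t x k = 0 := by
  apply integral_zero_of_anti
  intro x
  unfold force
  have h0 : ∀ i z, (SF0 ν a.1).c i (z + 1 / 2) = - (SF0 ν a.1).c i z := by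
    intro i z
    fin_cases i
    · exact cz_half z
    · exact cz_half z
    · exact cz2_half z
  have h1 : ∀ i z, (SF1 ν a.2).c i (z + 1 / 2) = - (SF1 ν a.2).c i z := by
    intro i z
    fin_cases i
    · exact cz_half z
    · exact cz2_half z
  split_ifs
  · exact SP.anti _ h0 t x
  · exact SP.anti _ h1 t x
  · simp

theorem mean_zero_vel (a : Desc × List ℕ) (t : ℝ) (k : Fin 3) :
    ∫ x, vel a t x k = 0 := by
  apply integral_zero_of_anti
  intro x
  unfold vel
  have h0 : ∀ i z, (SU0 a.1).c i (z + 1 / 2) = - (SU0 a.1).c i z := by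
    intro i z
    fin_cases i
    exact cz_half z
  have h1 : ∀ i z, (SU1 a.2).c i (z + 1 / 2) = - (SU1 a.2).c i z := by
    intro i z
    fin_cases i
    exact cz_half z
  split_ifs
  · exact SP.anti _ h0 t x
  · exact SP.anti _ h1 t x
  · simp

theorem div_force (ν : ℝ) (a : Desc × List ℕ) (t : ℝ) (ht : 0 ≤ t) (x : T3) :
    ∑ i, mixed [some i] (fun t x => force ν a t x i) t x = 0 := by
  rw [Fin.sum_univ_three]
  have e0 : (fun t x => force ν a t x 0) = (SF0 ν a.1).f := by
    funext t x; simp [force]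
  have e1 : (fun t x => force ν a t x 1) = (SF1 ν a.2).f := by
    funext t x; simp [force]
  have e2 : (fun t x => force ν a t x 2) = fun _ _ => 0 := by
    funext t x; simp [force]
  rw [e0, e1, e2, SP.mixed _ _ t ht, SP.mixed _ _ t ht, mixed_zero _ t ht]
  have h1 : (some (0 : Fin 3)) ∈ [some (0 : Fin 3)] := by simp
  have h2 : ¬ (some (0 : Fin 3)) ∈ [some (1 : Fin 3)] := by simp
  simp only [h1, h2, if_true, if_false]
  have hcz : cl (iteratedDeriv 1 fun _ : ℝ => (1 : ℝ)) = fun _ => 0 := by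
    funext y
    unfold cl
    rw [iteratedDeriv_const]; simp
  have c1 : List.count (some (1 : Fin 3)) [some 1] = 1 := by simp
  rw [c1]
  simp only [SP.f, SP.D, SF1, Fin.sum_univ_two, Matrix.cons_val_zero, Matrix.cons_val_one,
    Matrix.cons_val_fin_one, hcz]
  ring

theorem HBs_zero {t : ℝ} (h : t ≤ 1) : HB bump (t - 1) = 0 :=
  HB_of_le (fun _ hs => bump_of_le hs) (by linarith)

theorem vel_load (d d' : Desc) (l : List ℕ) {t : ℝ} (ht : t ≤ 1) :
    vel (d, l) t = vel (d', l) t := by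
  funext x k
  simp [vel, SP.f, SU0, HBs_zero ht]

theorem force_load (ν : ℝ) (d d' : Desc) (l : List ℕ) {t : ℝ} (ht : t ≤ 1) :
    force ν (d, l) t = force ν (d', l) t := by
  funext x k
  simp [force, SP.f, SF0, HBs_zero ht, bump_of_le (show t - 1 ≤ 0 by linarith),
    Fin.sum_univ_three]

theorem vel_run (d : Desc) (l l' : List ℕ) {t : ℝ} (ht : 1 ≤ t) :
    vel (d, l) t = vel (d, l') t := by
  funext x k
  simp [vel, SP.f, SU1, bump_of_ge ht]

theorem force_run (ν : ℝ) (d : Desc) (l l' : List ℕ) {t : ℝ} (ht : 1 ≤ t) :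
    force ν (d, l) t = force ν (d, l') t := by
  have h := iteratedDeriv_bump_of_ge ht 1
  funext x k
  simp only [force, SP.f, SF1, bump_of_ge ht, h, Fin.sum_univ_two, Matrix.cons_val_zero,
    Matrix.cons_val_one, Matrix.cons_val_fin_one, mul_zero, zero_mul]

theorem vel_steady (d : Desc) (l : List ℕ) {t : ℝ} (ht : 2 ≤ t) :
    vel (d, l) t = vel (d, l) 2 := by
  have h1 : HB bump (t - 1) = cB := HB_of_ge (by linarith)
  have h2 : HB bump (2 - 1) = cB := HB_of_ge (by norm_num)
  funext x k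
  simp only [vel, SP.f, SU0, SU1, h1, h2, bump_of_ge (show (1 : ℝ) ≤ t by linarith),
    bump_of_ge (show (1 : ℝ) ≤ 2 by norm_num), Matrix.cons_val_fin_one]

theorem force_steady (ν : ℝ) (d : Desc) (l : List ℕ) {t : ℝ} (ht : 2 ≤ t) :
    force ν (d, l) t = force ν (d, l) 2 := by
  have h1 : HB bump (t - 1) = cB := HB_of_ge (by linarith)
  have h2 : HB bump (2 - 1) = cB := HB_of_ge (by norm_num)
  have h3 : bump (t - 1) = 0 := bump_of_ge (by linarith)
  have h4 : bump (2 - 1) = 0 := bump_of_ge (by norm_num)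
  have h5 := iteratedDeriv_bump_of_ge (show (1 : ℝ) ≤ t by linarith) 1
  have h6 := iteratedDeriv_bump_of_ge (show (1 : ℝ) ≤ 2 by norm_num) 1
  have h7 : bump t = 0 := bump_of_ge (by linarith)
  have h8 : bump 2 = 0 := bump_of_ge (by norm_num)
  funext x k
  simp only [force, SP.f, SF0, SF1, h1, h2, h3, h4, h5, h6, h7, h8, Fin.sum_univ_two,
    Fin.sum_univ_three, Matrix.cons_val_zero, Matrix.cons_val_one, Matrix.cons_val_two,
    Matrix.head_cons, Matrix.tail_cons, Matrix.cons_val_fin_one]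

theorem yw_computable : ∃ s : List ℕ × ℕ → Frac, Computable s ∧
    ∀ l n, |((ratVal (s (l, n)) : ℚ) : ℝ) - yw l| ≤ 1 / ((n : ℝ) + 1) := by
  have h1 : CompReal fun l : List ℕ => yw l := by
    unfold yw
    have hk : CompReal fun _ : List ℕ => kap := by
      have := (effSmooth_cz (α := Unit)).2.comp (α := List ℕ)
        (g := fun _ => ((), (0, ((1, 0, 1) : QC)))) (Computable.const _)
      refine this.of_eq fun _ => ?_
      simp only [iteratedDeriv_zero, kap]
      congr 1
      norm_num [qv]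
    have hc : CompReal fun _ : List ℕ => cB := by
      have := (effSmooth_H (α := Unit)).2.comp (α := List ℕ)
        (g := fun _ => ((), (0, ((1, 0, 0) : QC)))) (Computable.const _)
      refine this.of_eq fun _ => ?_
      simp only [iteratedDeriv_zero, cB]
      congr 1
      norm_num [qv]
    exact ratComp_qw.compReal.mul (hk.mul hc)
  obtain ⟨F, hF, h⟩ := h1
  refine ⟨F, hF, fun l n => ?_⟩
  rw [abs_sub_comm]
  have := h l n
  rw [qv_eq_rv] at this
  exact this

theorem main2 : ∀ ν : ℝ, 0 < ν → ComputableReal ν →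
    ∃ (a : T3) (O : Set T3) (y : List ℕ → ℝ)
      (compiler : Desc × List ℕ → Nat.Partrec.Code) (f u : (M : Machine) → M.Word → VField),
      IsOpen O ∧
      Computable compiler ∧
      (∀ M w, SmoothV (f M w) ∧ Computes (compiler (M.desc, M.wordDesc w)) (f M w)) ∧
      (∀ M w M' w', M.wordDesc w = M'.wordDesc w' → ∀ t ∈ Icc 0 1,
        f M w t = f M' w' t ∧ u M w t = u M' w' t) ∧
      (∀ M w w' t, 1 ≤ t → f M w t = f M w' t ∧ u M w t = u M w' t) ∧
      (∀ M w t, 2 ≤ t → f M w t = f M w 2 ∧ u M w t = u M w 2) ∧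
      (∀ M w t k, 0 ≤ t → ∫ x, f M w t x k = 0 ∧ ∫ x, u M w t x k = 0) ∧
      (∀ M w t x, 0 ≤ t → ∑ i, mixed [some i] (fun t x => f M w t x i) t x = 0) ∧
      (∀ M w, SmoothV (u M w) ∧ ∀ T, 0 < T →
        IsClassicalSolution ν (f M w) T (u M w) (fun _ _ => 0) ∧
        ∀ v q, IsClassicalSolution ν (f M w) T v q →
          ∀ t ∈ Icc 0 T, v t = u M w t ∧ q t = fun _ => 0) ∧
      (∃ s : List ℕ × ℕ → Frac, Computable s ∧
        ∀ l n, |((ratVal (s (l, n)) : ℚ) : ℝ) - y l| ≤ 1 / ((n : ℝ) + 1)) ∧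
      (∀ M w, (∃ X, IsTrajectory (u M w) a X) ∧
        ∀ X, IsTrajectory (u M w) a X →
          X 1 = proj ![0, y (M.wordDesc w), 1 / 2] ∧
          ((∃ t, 0 ≤ t ∧ X t ∈ O) ↔ M.HaltsOn w)) := by
  intro ν hν hνc
  obtain ⟨comp, hcomp, hcomp'⟩ := exists_compiler2 hνc
  refine ⟨start, target, yw, comp, fun M w => force ν (M.desc, M.wordDesc w),
    fun M w => vel (M.desc, M.wordDesc w), isOpen_target, hcomp,
    fun M w => ⟨smoothV_force _ _, hcomp' _⟩, ?_, ?_, ?_, ?_, ?_, ?_, yw_computable, ?_⟩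
  · intro M w M' w' h t ht
    dsimp only
    rw [h]
    exact ⟨force_load ν _ _ _ ht.2, vel_load _ _ _ ht.2⟩
  · intro M w w' t ht
    exact ⟨force_run ν _ _ _ ht, vel_run _ _ _ ht⟩
  · intro M w t ht
    exact ⟨force_steady ν _ _ ht, vel_steady _ _ ht⟩
  · intro M w t k _
    exact ⟨mean_zero_force _ _ _ _, mean_zero_vel _ _ _⟩
  · intro M w t x ht
    exact div_force ν _ t ht x
  · intro M w
    refine ⟨smoothV_vel _, fun T hT => ⟨classical2 ν _ T, fun v q hv t ht => ?_⟩⟩
    exact eq_of_classical hν.le hT (classical2 ν _ T) hv t ht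
  · intro M w
    refine ⟨⟨_, trajectory2 _⟩, fun X hX => ⟨?_, ?_⟩⟩
    · rw [trajectory2_unique _ hX 1 zero_le_one]
      funext k
      fin_cases k
      · simp only [proj, path2]
        have hK : KK 1 = 0 := by
          unfold KK
          rw [intervalIntegral.integral_congr (g := fun _ => (0 : ℝ))]
          · simp
          · intro s hs
            rw [Set.uIcc_of_le zero_le_one] at hs
            exact HBs_zero hs.2
        simp [hK]
      · simp only [proj, path2, yw]
        have e : kap * qw (M.wordDesc w) * HB bump 1 = qw (M.wordDesc w) * (kap * cB) := by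
          unfold cB; ring
        simp only [Fin.mk_one, Matrix.cons_val_one, Matrix.cons_val_zero]
        rw [e]
      · rfl
    · rw [haltsOn_iff, ← hits2_iff (M.desc, M.wordDesc w)]
      refine exists_congr fun t => and_congr_right fun ht => ?_
      rw [trajectory2_unique _ hX t ht]

end Vale.Agent.P113.L2
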